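import Mathlib

open MeasureTheory Filter Topology
open scoped ENNReal

namespace Crest.Agent.R40A

/-- Fast `L²` convergence gives almost everywhere convergence. -/
theorem ae_tendsto_of_fast {W : Type*} [MeasurableSpace W] {P : Measure W} [IsProbabilityMeasure P]
    (f : Lp ℝ 2 P) (g : ℕ → Lp ℝ 2 P) (h : ∀ n, ‖f - g n‖ ≤ (1 / 2 : ℝ) ^ n) :
    ∀ᵐ w ∂P, Tendsto (fun n => g n w) atTop (𝓝 (f w)) := by
  have hm : ∀ n, AEMeasurable (fun w => ‖f w - g n w‖ₑ) P := fun n =>
    ((Lp.aestronglyMeasurable f).sub (Lp.aestronglyMeasurable (g n))).enorm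
  have hle : ∀ n, ∫⁻ w, ‖f w - g n w‖ₑ ∂P ≤ ENNReal.ofReal ((1 / 2 : ℝ) ^ n) := by
    intro n
    have h1 : ∫⁻ w, ‖f w - g n w‖ₑ ∂P = eLpNorm (⇑(f - g n)) 1 P := by
      rw [eLpNorm_one_eq_lintegral_enorm]
      refine lintegral_congr_ae ?_
      filter_upwards [Lp.coeFn_sub f (g n)] with w hw
      rw [hw]; rfl
    rw [h1]
    refine (eLpNorm_le_eLpNorm_of_exponent_le (p := 1) (q := 2) (by norm_num)
      (Lp.aestronglyMeasurable _)).trans ?_
    rw [← Lp.enorm_def, ← ofReal_norm]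
    exact ENNReal.ofReal_le_ofReal (h n)
  have hsum : ∫⁻ w, ∑' n, ‖f w - g n w‖ₑ ∂P ≠ ∞ := by
    rw [lintegral_tsum hm]
    refine ne_top_of_le_ne_top ?_ (ENNReal.tsum_le_tsum hle)
    rw [← ENNReal.ofReal_tsum_of_nonneg (fun n => by positivity) summable_geometric_two]
    exact ENNReal.ofReal_ne_top
  filter_upwards [ae_lt_top' (AEMeasurable.ennreal_tsum hm) hsum] with w hw
  have h0 := ENNReal.tendsto_atTop_zero_of_tsum_ne_top hw.ne
  have h2 : Tendsto (fun n => ‖f w - g n w‖) atTop (𝓝 0) := by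
    have := (ENNReal.tendsto_toReal ENNReal.zero_ne_top).comp h0
    simpa [Function.comp_def] using this
  rw [tendsto_iff_norm_sub_tendsto_zero]
  simpa [norm_sub_rev] using h2

/-- (J1) A continuous field of `L²` random variables has a jointly measurable version. -/
theorem joint_version {W : Type*} [MeasurableSpace W] {P : Measure W} [IsProbabilityMeasure P]
    (F : ℂ → Lp ℝ 2 P) (hF : Continuous F) :
    ∃ φ : ℂ × W → ℝ, Measurable φ ∧ ∀ x, (fun w => φ (x, w)) =ᵐ[P] F x := by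
  classical
  set e : ℕ → ℂ := TopologicalSpace.denseSeq ℂ with he
  have hd : DenseRange e := TopologicalSpace.denseRange_denseSeq ℂ
  have hex : ∀ (n : ℕ) (q : ℂ × W), ∃ k, ‖F q.1 - F (e k)‖ < (1 / 2 : ℝ) ^ n := by
    intro n q
    have hopen : IsOpen {y : ℂ | ‖F q.1 - F y‖ < (1 / 2 : ℝ) ^ n} :=
      isOpen_lt (by fun_prop) continuous_const
    obtain ⟨k, hk⟩ := hd.exists_mem_open hopen ⟨q.1, by simp⟩
    exact ⟨k, hk⟩
  let φ : ℕ → ℂ × W → ℝ := fun n q => F (e (Nat.find (hex n q))) q.2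
  have hφ : ∀ n, Measurable (φ n) := by
    intro n
    refine Measurable.find (f := fun k (q : ℂ × W) => F (e k) q.2)
      (p := fun k (q : ℂ × W) => ‖F q.1 - F (e k)‖ < (1 / 2 : ℝ) ^ n) (fun k => ?_) (fun k => ?_) (hex n)
    · exact (Lp.stronglyMeasurable (F (e k))).measurable.comp measurable_snd
    · have : Continuous (fun x : ℂ => ‖F x - F (e k)‖) := by fun_prop
      exact measurableSet_lt (this.measurable.comp measurable_fst) measurable_const
  refine ⟨fun q => limsup (fun n => φ n q) atTop, Measurable.limsup hφ, fun x => ?_⟩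
  have hW : Nonempty W := nonempty_of_isProbabilityMeasure P
  obtain ⟨w₀⟩ := hW
  have key := ae_tendsto_of_fast (F x) (fun n => F (e (Nat.find (hex n (x, w₀)))))
    (fun n => (Nat.find_spec (hex n (x, w₀))).le)
  filter_upwards [key] with w hw
  exact hw.limsup_eq

/-- (J2) A continuous random fractional colouring with orthogonal colour fields at unit distance
gives a measurable colouring that is proper for almost every unit pair. -/
theorem colouring_of_fields {W : Type*} [MeasurableSpace W] {P : Measure W} [IsProbabilityMeasure P]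
    {n : ℕ} (p : Fin n → ℂ → Lp ℝ 2 P) (hc : ∀ a, Continuous (p a))
    (h0 : ∀ x a, 0 ≤ p a x) (h1 : ∀ x, ∀ᵐ w ∂P, ∑ a, p a x w = 1)
    (horth : ∀ x y a, ‖x - y‖ = 1 → inner ℝ (p a x) (p a y) = 0) :
    ∃ c : ℂ → Fin n, Measurable c ∧
      ∀ᵐ z : ℂ, ∀ᵐ θ : ℝ, c (z + circleMap 0 1 θ) ≠ c z := by
  classical
  choose φ hφm hφ using fun a => joint_version (p a) (hc a)
  have hn : 0 < n := by
    rcases Nat.eq_zero_or_pos n with rfl | h
    · obtain ⟨w, hw⟩ := (h1 0).exists
      simp at hw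
    · exact h
  -- the colour: a colour with positive weight, chosen measurably
  have hex : ∀ q : ℂ × W, ∃ k : ℕ, (∃ h : k < n, 0 < φ ⟨k, h⟩ q) ∨ k = n := fun q => ⟨n, Or.inr rfl⟩
  let C : ℂ × W → Fin n := fun q =>
    if h : Nat.find (hex q) < n then ⟨Nat.find (hex q), h⟩ else ⟨0, hn⟩
  have hfind : Measurable fun q => Nat.find (hex q) := by
    refine measurable_find hex fun k => ?_
    by_cases hk : k < n
    · have : {q : ℂ × W | (∃ h : k < n, 0 < φ ⟨k, h⟩ q) ∨ k = n} = {q | 0 < φ ⟨k, hk⟩ q} := by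
        ext q; simp [hk, hk.ne]
      rw [this]
      exact measurableSet_lt measurable_const (hφm _)
    · simp [hk]
  have hC : Measurable C :=
    (measurable_from_top (f := fun k : ℕ => if h : k < n then (⟨k, h⟩ : Fin n) else ⟨0, hn⟩)).comp hfind
  have hpos : ∀ q : ℂ × W, (∃ a, 0 < φ a q) → 0 < φ (C q) q := by
    rintro q ⟨a, ha⟩
    have hle : Nat.find (hex q) ≤ a.1 := Nat.find_min' (hex q) (Or.inl ⟨a.2, ha⟩)
    have hlt : Nat.find (hex q) < n := hle.trans_lt a.2
    rcases Nat.find_spec (hex q) with ⟨h, h'⟩ | h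
    · have : C q = ⟨Nat.find (hex q), h⟩ := dif_pos hlt
      rw [this]; exact h'
    · exact absurd h hlt.ne
  have hsome : ∀ x, ∀ᵐ w ∂P, 0 < φ (C (x, w)) (x, w) := by
    intro x
    have hall : ∀ᵐ w ∂P, ∀ a, φ a (x, w) = p a x w := ae_all_iff.2 fun a => hφ a x
    filter_upwards [hall, h1 x] with w hw hs
    refine hpos _ ?_
    by_contra hcon
    push Not at hcon
    have : ∑ a, p a x w ≤ 0 := Finset.sum_nonpos fun a _ => (hw a) ▸ hcon a
    linarith
  have hprod : ∀ x y a, ‖x - y‖ = 1 → ∀ᵐ w ∂P, φ a (x, w) * φ a (y, w) = 0 := by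
    intro x y a hxy
    have hi := horth x y a hxy
    rw [L2.inner_def] at hi
    have hx0 : 0 ≤ᵐ[P] p a x := (Lp.coeFn_nonneg _).2 (h0 x a)
    have hy0 : 0 ≤ᵐ[P] p a y := (Lp.coeFn_nonneg _).2 (h0 y a)
    have hnn : 0 ≤ᵐ[P] fun w => inner ℝ (p a x w) (p a y w) := by
      filter_upwards [hx0, hy0] with w h1 h2
      simp only [Pi.zero_apply] at h1 h2 ⊢
      simp only [RCLike.inner_apply, conj_trivial]
      positivity
    have := (integral_eq_zero_iff_of_nonneg_ae hnn (L2.integrable_inner _ _)).1 hi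
    filter_upwards [this, hφ a x, hφ a y] with w hw e1 e2
    simp only [RCLike.inner_apply, conj_trivial, Pi.zero_apply] at hw
    rw [e1, e2, mul_comm]
    exact hw
  have hall : ∀ (z : ℂ) (θ : ℝ), ∀ᵐ w ∂P, C (z + circleMap 0 1 θ, w) ≠ C (z, w) := by
    intro z θ
    have hu : ‖(z + circleMap 0 1 θ) - z‖ = 1 := by simp
    have hp : ∀ᵐ w ∂P, ∀ a, φ a (z + circleMap 0 1 θ, w) * φ a (z, w) = 0 :=
      ae_all_iff.2 fun a => hprod _ _ a hu
    filter_upwards [hp, hsome z, hsome (z + circleMap 0 1 θ)] with w hw a1 a2 heq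
    rw [heq] at a2
    exact (mul_pos a2 a1).ne' (hw _)
  have hmeas : MeasurableSet {q : (ℂ × ℝ) × W | C (q.1.1 + circleMap 0 1 q.1.2, q.2) ≠ C (q.1.1, q.2)} := by
    have hcm : Measurable (circleMap 0 1) := (continuous_circleMap 0 1).measurable
    have m1 : Measurable fun q : (ℂ × ℝ) × W => C (q.1.1 + circleMap 0 1 q.1.2, q.2) :=
      hC.comp ((measurable_fst.fst.add (hcm.comp measurable_fst.snd)).prodMk measurable_snd)
    have m2 : Measurable fun q : (ℂ × ℝ) × W => C (q.1.1, q.2) :=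
      hC.comp (measurable_fst.fst.prodMk measurable_snd)
    exact (measurableSet_eq_fun m1 m2).compl
  have hswap : ∀ᵐ w ∂P, ∀ᵐ u : ℂ × ℝ ∂((volume : Measure ℂ).prod (volume : Measure ℝ)),
      C (u.1 + circleMap 0 1 u.2, w) ≠ C (u.1, w) :=
    (Measure.ae_ae_comm (μ := (volume : Measure ℂ).prod (volume : Measure ℝ)) (ν := P)
      (p := fun u w => C (u.1 + circleMap 0 1 u.2, w) ≠ C (u.1, w)) hmeas).1
      (Eventually.of_forall fun u => hall u.1 u.2)
  obtain ⟨w, hw⟩ := hswap.exists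
  exact ⟨fun x => C (x, w), hC.comp (measurable_id.prodMk measurable_const),
    Measure.ae_ae_of_ae_prod hw⟩

end Crest.Agent.R40A
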