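import Crest.Agent.R40A.Rigid
import Crest.Agent.R40A.Joint
import Crest.Agent.R40.MBasic

/-! Step 0: from an arbitrary proper colouring to a measurable almost proper one. -/

set_option autoImplicit false

namespace Crest.Agent.R40A

open MeasureTheory

theorem step0_of {n : ℕ}
    (hR : ∀ (P : Measure (ℂ → Fin n)) [IsProbabilityMeasure P], RigidFor (Lp ℝ 2 P))
    (hJ : ∀ (P : Measure (ℂ → Fin n)) [IsProbabilityMeasure P] (p : Fin n → ℂ → Lp ℝ 2 P),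
      (∀ a, Continuous (p a)) → (∀ x a, 0 ≤ p a x) → (∀ x, ∀ᵐ w ∂P, ∑ a, p a x w = 1) →
      (∀ x y a, ‖x - y‖ = 1 → inner ℝ (p a x) (p a y) = 0) →
      ∃ c : ℂ → Fin n, Measurable c ∧ ∀ᵐ z : ℂ, ∀ᵐ θ : ℝ, c (z + circleMap 0 1 θ) ≠ c z)
    (c : EuclideanSpace ℝ (Fin 2) → Fin n) (hc : ∀ x y, dist x y = 1 → c x ≠ c y) :
    ∃ c' : ℂ → Fin n, Measurable c' ∧ ∀ᵐ z : ℂ, ∀ᵐ θ : ℝ, c' (z + circleMap 0 1 θ) ≠ c' z := by
  obtain ⟨P, hP, hI, hN⟩ := exists_inv (fun z => c (Complex.orthonormalBasisOneI.repr z))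
    fun x y hxy => hc _ _ (by
      rw [Complex.orthonormalBasisOneI.repr.dist_map, dist_eq_norm, hxy])
  obtain ⟨F, h1, h2, h3, h4⟩ := exists_proj P (hR P) hI hN
  exact hJ P F (fun a => (h1 a).continuous) (fun x a => h2 a x) h3 fun x y a h => h4 a x y h

theorem step0 (c : EuclideanSpace ℝ (Fin 2) → Fin 5) (hc : ∀ x y, dist x y = 1 → c x ≠ c y) :
    ∃ c' : ℂ → Fin 5, Measurable c' ∧ ∀ᵐ z : ℂ, ∀ᵐ θ : ℝ, c' (z + circleMap 0 1 θ) ≠ c' z :=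
  step0_of (fun P _ => rigidFor _) (fun _ _ p h1 h2 h3 h4 => colouring_of_fields p h1 h2 h3 h4) c hc

theorem step0_good (c : EuclideanSpace ℝ (Fin 2) → Fin 5)
    (hc : ∀ x y, dist x y = 1 → c x ≠ c y) : ∃ c' : ℂ → Fin 5, R40.Good c' := by
  obtain ⟨c', h1, h2⟩ := step0 c hc
  exact ⟨c', R40.good_of_ae_ae h1 h2⟩

end Crest.Agent.R40A
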