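import Crest.Agent.R40A.Mean

/-! An isometry-invariant probability measure on proper colourings of the plane. -/

set_option autoImplicit false

namespace Crest.Agent.R40A

open MeasureTheory Set
open scoped CompactlySupported

theorem exists_measure_of_functional {X : Type*} [TopologicalSpace X] [CompactSpace X] [T2Space X]
    (Λ : (X → ℝ) →ₗ[ℝ] ℝ) (h1 : Λ 1 = 1)
    (hp : ∀ (f : X → ℝ) (C : ℝ), (∀ x, |f x| ≤ C) → (∀ x, 0 ≤ f x) → 0 ≤ Λ f)
    (m : MeasurableSpace X) (hm : m ≤ borel X) :
    ∃ P : @Measure X m, IsProbabilityMeasure P ∧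
      ∀ A : Set X, IsClopen A → MeasurableSet[m] A → P.real A = Λ (A.indicator 1) := by
  letI b : MeasurableSpace X := borel X
  haveI : BorelSpace X := ⟨rfl⟩
  have hb : ∀ g : C_c(X, ℝ), ∃ C : ℝ, ∀ x, |g x| ≤ C := by
    intro g
    obtain ⟨C, hC⟩ := (isCompact_range g.continuous).isBounded.exists_norm_le
    exact ⟨C, fun x => hC _ ⟨x, rfl⟩⟩
  let L : C_c(X, ℝ) →ₚ[ℝ] ℝ :=
    { toFun g := Λ g
      map_add' g g' := by rw [← map_add]; rfl
      map_smul' c g := by rw [RingHom.id_apply, ← map_smul]; rfl
      monotone' g g' hgg' := by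
        obtain ⟨C, hC⟩ := hb g
        obtain ⟨D, hD⟩ := hb g'
        exact pos_mono Λ hp _ _ C D hC hD hgg' }
  let μ : @Measure X b := RealRMK.rieszMeasure L
  have key : ∀ A : Set X, IsClopen A → μ.real A = Λ (A.indicator 1) := by
    intro A hA
    let g : C_c(X, ℝ) :=
      { toFun := A.indicator 1
        continuous_toFun := hA.continuous_indicator continuous_const
        hasCompactSupport' := HasCompactSupport.of_compactSpace _ }
    have := RealRMK.integral_rieszMeasure L g
    rw [← integral_indicator_one hA.isOpen.measurableSet]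
    exact this
  have hμ : IsProbabilityMeasure μ := by
    constructor
    have := key univ isClopen_univ
    rw [indicator_univ, h1] at this
    exact (ENNReal.toReal_eq_one_iff _).1 this
  refine ⟨μ.trim hm, ?_, fun A hA hAm => ?_⟩
  · constructor
    rw [trim_measurableSet_eq hm MeasurableSet.univ, measure_univ]
  · rw [Measure.real, trim_measurableSet_eq hm hAm]
    exact key A hA

theorem isClopen_of_mem_measurableCylinders {ι : Type*} {n : ℕ} {A : Set (ι → Fin n)}
    (hA : A ∈ measurableCylinders (fun _ : ι => Fin n)) : IsClopen A := by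
  obtain ⟨s, S, -, rfl⟩ := (mem_measurableCylinders _).1 hA
  exact (isClopen_discrete S).preimage (Finset.continuous_restrict s)

/-- From a proper colouring of the plane to an isometry-invariant random proper colouring
(product σ-algebra). -/
theorem exists_inv {n : ℕ} (c : ℂ → Fin n) (hc : ∀ x y : ℂ, ‖x - y‖ = 1 → c x ≠ c y) :
    ∃ P : Measure (ℂ → Fin n), IsProbabilityMeasure P ∧
      (∀ u y : ℂ, ‖u‖ = 1 →
        MeasurePreserving (fun (ω : ℂ → Fin n) (z : ℂ) => ω (u * z + y)) P P) ∧
      ∀ x y : ℂ, ‖x - y‖ = 1 → P {ω | ω x = ω y} = 0 := by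
  obtain ⟨M, M1, Mp, Mi⟩ := exists_mean ℂ
  obtain ⟨N, N1, Np, Ni⟩ := exists_mean_mul Circle
  let w : Circle → ℂ → (ℂ → Fin n) := fun u x z => c (u * z + x)
  let Λ : ((ℂ → Fin n) → ℝ) →ₗ[ℝ] ℝ :=
    { toFun F := N fun u => M fun x => F (w u x)
      map_add' F F' := by
        rw [← map_add]; congr 1; funext u; rw [Pi.add_apply, ← map_add]; rfl
      map_smul' a F := by
        rw [RingHom.id_apply, ← map_smul]; congr 1; funext u; rw [Pi.smul_apply, ← map_smul]; rfl }
  have hΛ : ∀ F, Λ F = N fun u => M fun x => F (w u x) := fun F => rfl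
  have Λ1 : Λ 1 = 1 := by
    rw [hΛ]
    have : (fun u : Circle => M fun x => (1 : (ℂ → Fin n) → ℝ) (w u x)) = 1 := by
      funext u; exact M1
    rw [this, N1]
  have Λp : ∀ (f : (ℂ → Fin n) → ℝ) (C : ℝ), (∀ x, |f x| ≤ C) → (∀ x, 0 ≤ f x) → 0 ≤ Λ f := by
    intro f C hC h0
    rw [hΛ]
    exact Np _ C (fun u => pos_abs_le M M1 Mp _ C fun x => hC _)
      fun u => Mp _ C (fun x => hC _) fun x => h0 _
  have hm : (MeasurableSpace.pi : MeasurableSpace (ℂ → Fin n)) ≤ borel (ℂ → Fin n) := by
    rw [← generateFrom_measurableCylinders]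
    refine MeasurableSpace.generateFrom_le fun A hA => ?_
    exact MeasurableSpace.measurableSet_generateFrom
      (isClopen_of_mem_measurableCylinders hA).isOpen
  obtain ⟨P, hP, hPA⟩ := exists_measure_of_functional Λ Λ1 Λp _ hm
  have hind : ∀ (A : Set (ℂ → Fin n)) ω, |A.indicator (1 : (ℂ → Fin n) → ℝ) ω| ≤ 1 := by
    intro A ω
    by_cases h : ω ∈ A <;> simp [h]
  refine ⟨P, hP, fun u y hu => ?_, fun x y hxy => ?_⟩
  · have hmeas : Measurable (fun (ω : ℂ → Fin n) (z : ℂ) => ω (u * z + y)) :=
      measurable_pi_lambda _ fun z => measurable_pi_apply _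
    have hcont : Continuous (fun (ω : ℂ → Fin n) (z : ℂ) => ω (u * z + y)) :=
      continuous_pi fun z => continuous_apply _
    refine ⟨hmeas, ?_⟩
    haveI : IsProbabilityMeasure (P.map (fun (ω : ℂ → Fin n) (z : ℂ) => ω (u * z + y))) :=
      Measure.isProbabilityMeasure_map hmeas.aemeasurable
    refine ext_of_generate_finite _ generateFrom_measurableCylinders.symm
      isPiSystem_measurableCylinders (fun A hA => ?_) (by simp)
    have hAm : MeasurableSet A := MeasurableSet.of_mem_measurableCylinders hA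
    have hAc := isClopen_of_mem_measurableCylinders hA
    rw [Measure.map_apply hmeas hAm]
    have e1 := hPA _ (hAc.preimage hcont) (hmeas hAm)
    have e2 := hPA _ hAc hAm
    refine (ENNReal.toReal_eq_toReal_iff' (measure_ne_top _ _) (measure_ne_top _ _)).1 ?_
    change P.real _ = P.real _
    rw [e1, e2, hΛ, hΛ]
    let v : Circle := ⟨u, by simpa [Submonoid.unitSphere] using hu⟩
    rw [← Ni (fun u' => M fun x => A.indicator 1 (w u' x)) 1 v
      fun u' => pos_abs_le M M1 Mp _ 1 fun x => hind _ _]
    congr 1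
    funext u'
    rw [← Mi (fun x => A.indicator 1 (w (u' * v) x)) 1 (u' * y) fun x => hind _ _]
    congr 1
    funext x
    have : w (u' * v) (x + u' * y) = fun z => w u' x (u * z + y) := by
      funext z
      simp only [w, Circle.coe_mul]
      congr 1
      change (u' : ℂ) * u * z + (x + u' * y) = _
      ring
    rw [this]
    rfl
  · have hcl : IsClopen {ω : ℂ → Fin n | ω x = ω y} :=
      (isClopen_discrete {p : Fin n × Fin n | p.1 = p.2}).preimage
        (f := fun ω : ℂ → Fin n => (ω x, ω y)) (by fun_prop)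
    have hme : MeasurableSet {ω : ℂ → Fin n | ω x = ω y} :=
      measurableSet_eq_fun (measurable_pi_apply x) (measurable_pi_apply y)
    have e := hPA _ hcl hme
    rw [hΛ] at e
    have : (fun u : Circle => M fun x' =>
        {ω : ℂ → Fin n | ω x = ω y}.indicator (1 : (ℂ → Fin n) → ℝ) (w u x')) = 0 := by
      funext u
      have : (fun x' => {ω : ℂ → Fin n | ω x = ω y}.indicator (1 : (ℂ → Fin n) → ℝ) (w u x')) = 0 := by
        funext x'
        refine indicator_of_notMem ?_ _
        refine hc _ _ ?_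
        rw [add_sub_add_right_eq_sub, ← mul_sub, norm_mul, Circle.norm_coe, hxy, one_mul]
      rw [this, map_zero]; rfl
    rw [this, map_zero] at e
    exact (measureReal_eq_zero_iff (measure_ne_top _ _)).1 e

end Crest.Agent.R40A
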