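import Mathlib

/-! Invariant means on abelian groups (viewed as discrete groups). -/

set_option autoImplicit false

namespace Crest.Agent.R40A.H11

open Filter Finset
open scoped Topology

/-- bounded real function -/
def Bdd {G : Type*} (F : G → ℝ) : Prop := ∃ B : ℝ, ∀ x, |F x| ≤ B

/-- A mean: a linear functional on all real functions, bounded above by the supremum on
bounded functions. -/
structure IsMean {G : Type*} (M : (G → ℝ) →ₗ[ℝ] ℝ) : Prop where
  le : ∀ (F : G → ℝ) (b : ℝ), Bdd F → (∀ x, F x ≤ b) → M F ≤ b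

namespace Bdd
variable {G : Type*}

theorem const (c : ℝ) : Bdd (fun _ : G => c) := ⟨|c|, fun _ => le_rfl⟩

theorem add {F F' : G → ℝ} (h : Bdd F) (h' : Bdd F') : Bdd (fun x => F x + F' x) := by
  obtain ⟨B, hB⟩ := h
  obtain ⟨B', hB'⟩ := h'
  exact ⟨B + B', fun x => (abs_add_le _ _).trans (add_le_add (hB x) (hB' x))⟩

theorem neg {F : G → ℝ} (h : Bdd F) : Bdd (fun x => - F x) := by
  obtain ⟨B, hB⟩ := h
  exact ⟨B, fun x => by simpa using hB x⟩

theorem sub {F F' : G → ℝ} (h : Bdd F) (h' : Bdd F') : Bdd (fun x => F x - F' x) := by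
  simpa [sub_eq_add_neg] using h.add h'.neg

theorem mul {F F' : G → ℝ} (h : Bdd F) (h' : Bdd F') : Bdd (fun x => F x * F' x) := by
  obtain ⟨B, hB⟩ := h
  obtain ⟨B', hB'⟩ := h'
  refine ⟨B * B', fun x => ?_⟩
  rw [abs_mul]
  exact mul_le_mul (hB x) (hB' x) (abs_nonneg _) ((abs_nonneg _).trans (hB x))

theorem const_mul {F : G → ℝ} (c : ℝ) (h : Bdd F) : Bdd (fun x => c * F x) :=
  (const c).mul h

theorem comp {G' : Type*} {F : G → ℝ} (h : Bdd F) (φ : G' → G) : Bdd (fun x => F (φ x)) := by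
  obtain ⟨B, hB⟩ := h
  exact ⟨B, fun x => hB _⟩

theorem sum {ι : Type*} (s : Finset ι) {F : ι → G → ℝ} (h : ∀ i ∈ s, Bdd (F i)) :
    Bdd (fun x => ∑ i ∈ s, F i x) := by
  classical
  induction s using Finset.induction_on with
  | empty => simpa using const (0 : ℝ)
  | insert a s ha ih =>
    simp only [Finset.sum_insert ha]
    exact (h a (by simp)).add (ih fun i hi => h i (by simp [hi]))

end Bdd

namespace IsMean
variable {G : Type*} {M : (G → ℝ) →ₗ[ℝ] ℝ}

theorem ge (hM : IsMean M) (F : G → ℝ) (b : ℝ) (hF : Bdd F) (h : ∀ x, b ≤ F x) : b ≤ M F := by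
  have := hM.le (fun x => - F x) (-b) hF.neg (fun x => neg_le_neg (h x))
  have e : M (fun x => - F x) = - M F := map_neg M F
  linarith

theorem const (hM : IsMean M) (c : ℝ) : M (fun _ => c) = c :=
  le_antisymm (hM.le _ _ (Bdd.const c) fun _ => le_rfl) (hM.ge _ _ (Bdd.const c) fun _ => le_rfl)

theorem abs_le (hM : IsMean M) (F : G → ℝ) (B : ℝ) (h : ∀ x, |F x| ≤ B) : |M F| ≤ B :=
  _root_.abs_le.2 ⟨hM.ge F _ ⟨B, h⟩ fun x => (_root_.abs_le.1 (h x)).1,
    hM.le F _ ⟨B, h⟩ fun x => (_root_.abs_le.1 (h x)).2⟩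

theorem mono (hM : IsMean M) {F F' : G → ℝ} (hF : Bdd F) (hF' : Bdd F') (h : ∀ x, F x ≤ F' x) :
    M F ≤ M F' := by
  have := hM.ge (fun x => F' x - F x) 0 (hF'.sub hF) (fun x => sub_nonneg.2 (h x))
  have e : M (fun x => F' x - F x) = M F' - M F := map_sub M F' F
  linarith

theorem nonneg (hM : IsMean M) {F : G → ℝ} (hF : Bdd F) (h : ∀ x, 0 ≤ F x) : 0 ≤ M F :=
  hM.ge F 0 hF h

end IsMean

theorem mean_add {G : Type*} (M : (G → ℝ) →ₗ[ℝ] ℝ) (F F' : G → ℝ) :
    M (fun x => F x + F' x) = M F + M F' := map_add M F F'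

theorem mean_sub {G : Type*} (M : (G → ℝ) →ₗ[ℝ] ℝ) (F F' : G → ℝ) :
    M (fun x => F x - F' x) = M F - M F' := map_sub M F F'

theorem mean_neg {G : Type*} (M : (G → ℝ) →ₗ[ℝ] ℝ) (F : G → ℝ) :
    M (fun x => - F x) = - M F := map_neg M F

theorem mean_const_mul {G : Type*} (M : (G → ℝ) →ₗ[ℝ] ℝ) (c : ℝ) (F : G → ℝ) :
    M (fun x => c * F x) = c * M F := map_smul M c F

theorem mean_sum {G ι : Type*} (M : (G → ℝ) →ₗ[ℝ] ℝ) (s : Finset ι) (F : ι → G → ℝ) :
    M (fun x => ∑ i ∈ s, F i x) = ∑ i ∈ s, M (F i) := by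
  rw [← map_sum]
  congr 1
  funext x
  simp

section construction
variable {G : Type*} [AddCommGroup G]

/-- iterated finite averages -/
noncomputable def avgL (n : ℕ) : List G → (G → ℝ) → G → ℝ
  | [], F => F
  | h :: L, F => fun x => (∑ j ∈ range (n + 1), avgL n L F (x + j • h)) / (n + 1)

theorem avgL_add (n : ℕ) (L : List G) (F F' : G → ℝ) (x : G) :
    avgL n L (F + F') x = avgL n L F x + avgL n L F' x := by
  induction L generalizing x with
  | nil => rfl
  | cons h L ih => simp only [avgL, ih, Finset.sum_add_distrib, add_div]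

theorem avgL_smul (n : ℕ) (L : List G) (c : ℝ) (F : G → ℝ) (x : G) :
    avgL n L (c • F) x = c * avgL n L F x := by
  induction L generalizing x with
  | nil => rfl
  | cons h L ih => simp only [avgL, ih, ← Finset.mul_sum, mul_div_assoc]

theorem avg_le (n : ℕ) (a : ℕ → ℝ) (b : ℝ) (h : ∀ j, a j ≤ b) :
    (∑ j ∈ range (n + 1), a j) / (n + 1) ≤ b := by
  have hn : (0 : ℝ) < n + 1 := by positivity
  rw [div_le_iff₀ hn]
  calc _ ≤ ∑ _j ∈ range (n + 1), b := Finset.sum_le_sum fun j _ => h j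
    _ = b * (n + 1) := by simp [mul_comm]

theorem avg_abs_le (n : ℕ) (a : ℕ → ℝ) (b : ℝ) (h : ∀ j, |a j| ≤ b) :
    |(∑ j ∈ range (n + 1), a j) / (n + 1)| ≤ b := by
  have hn : (0 : ℝ) < n + 1 := by positivity
  rw [abs_div, abs_of_pos hn]
  refine le_trans ?_ (avg_le n (fun j => |a j|) b h)
  gcongr
  exact Finset.abs_sum_le_sum_abs _ _

theorem avgL_le (n : ℕ) (L : List G) (F : G → ℝ) (b : ℝ) (h : ∀ x, F x ≤ b) (x : G) :
    avgL n L F x ≤ b := by
  induction L generalizing x with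
  | nil => exact h x
  | cons g L ih => exact avg_le n _ b fun j => ih _

theorem avgL_abs_le (n : ℕ) (L : List G) (F : G → ℝ) (b : ℝ) (h : ∀ x, |F x| ≤ b) (x : G) :
    |avgL n L F x| ≤ b := by
  induction L generalizing x with
  | nil => exact h x
  | cons g L ih => exact avg_abs_le n _ b fun j => ih _

theorem avgL_shift (n : ℕ) (L : List G) (F : G → ℝ) (g x : G) :
    avgL n L (fun y => F (y + g)) x = avgL n L F (x + g) := by
  induction L generalizing x with
  | nil => rfl
  | cons h L ih =>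
    simp only [avgL, ih]
    congr 1
    refine Finset.sum_congr rfl fun j _ => ?_
    congr 1
    abel

theorem avgL_shift_sub (n : ℕ) (L : List G) (F : G → ℝ) (B : ℝ) (hB : ∀ x, |F x| ≤ B) (g : G)
    (hg : g ∈ L) (x : G) : |avgL n L F (x + g) - avgL n L F x| ≤ 2 * B / (n + 1) := by
  induction L generalizing x with
  | nil => simp at hg
  | cons h L ih =>
    have hn : (0 : ℝ) < n + 1 := by positivity
    rcases List.mem_cons.1 hg with rfl | hg'
    · simp only [avgL]
      rw [← sub_div, ← Finset.sum_sub_distrib]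
      have e : ∀ j : ℕ, avgL n L F (x + g + j • g) = avgL n L F (x + (j + 1) • g) := by
        intro j
        congr 1
        rw [succ_nsmul]
        abel
      simp only [e]
      rw [Finset.sum_range_sub (fun j => avgL n L F (x + j • g)), abs_div, abs_of_pos hn]
      gcongr
      have h1 := avgL_abs_le n L F B hB (x + (n + 1) • g)
      have h2 := avgL_abs_le n L F B hB (x + 0 • g)
      exact (abs_sub _ _).trans (by linarith)
    · simp only [avgL]
      rw [← sub_div, ← Finset.sum_sub_distrib]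
      refine avg_abs_le n _ _ fun j => ?_
      have := ih hg' (x + j • h)
      rwa [show x + j • h + g = x + g + j • h by abel] at this

/-- bounded functions as a submodule -/
def bddSub (G : Type*) : Submodule ℝ (G → ℝ) where
  carrier := {F | Bdd F}
  add_mem' := fun h h' => Bdd.add h h'
  zero_mem' := Bdd.const 0
  smul_mem' := fun c _ h => Bdd.const_mul c h

theorem exists_tendsto_of_bdd {ι : Type*} (u : Ultrafilter ι) (a : ι → ℝ) (B : ℝ)
    (h : ∀ i, |a i| ≤ B) : Tendsto a u (𝓝 (limUnder (u : Filter ι) a)) := by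
  have hh : (↑(u.map a) : Filter ℝ) ≤ 𝓟 (Set.Icc (-B) B) := by
    rw [le_principal_iff]
    exact Filter.mem_map.2 (Eventually.of_forall fun k => abs_le.1 (h k))
  obtain ⟨L, -, hL⟩ := (isCompact_Icc (a := -B) (b := B)).ultrafilter_le_nhds _ hh
  exact tendsto_nhds_limUnder ⟨L, hL⟩

/-- Every abelian group has an invariant mean. -/
theorem exists_mean (G : Type*) [AddCommGroup G] :
    ∃ M : (G → ℝ) →ₗ[ℝ] ℝ, IsMean M ∧
      ∀ (F : G → ℝ) (h : G), Bdd F → M (fun x => F (x + h)) = M F := by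
  classical
  let u : Ultrafilter (Finset G × ℕ) := Ultrafilter.of atTop
  have hu : (u : Filter (Finset G × ℕ)) ≤ atTop := Ultrafilter.of_le _
  let a : (G → ℝ) → Finset G × ℕ → ℝ := fun F p => avgL p.2 p.1.toList F 0
  have ha : ∀ F : G → ℝ, Bdd F → Tendsto (a F) u (𝓝 (limUnder (u : Filter _) (a F))) := by
    rintro F ⟨B, hB⟩
    exact exists_tendsto_of_bdd u _ B fun p => avgL_abs_le _ _ F B hB 0
  let M0 : bddSub G →ₗ[ℝ] ℝ :=
    { toFun := fun F => limUnder (u : Filter _) (a F.1)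
      map_add' := fun F F' => by
        refine tendsto_nhds_unique (ha _ (F + F').2) ?_
        refine ((ha _ F.2).add (ha _ F'.2)).congr fun p => ?_
        exact (avgL_add _ _ _ _ _).symm
      map_smul' := fun c F => by
        refine tendsto_nhds_unique (ha _ (c • F).2) ?_
        refine ((ha _ F.2).const_mul c).congr fun p => ?_
        exact (avgL_smul _ _ _ _ _).symm }
  obtain ⟨M, hM⟩ := M0.exists_extend
  have hMF : ∀ F : G → ℝ, Bdd F → Tendsto (a F) u (𝓝 (M F)) := by
    intro F hF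
    have : M F = M0 ⟨F, hF⟩ := by rw [← hM]; rfl
    rw [this]
    exact ha F hF
  refine ⟨M, ⟨fun F b hF h => le_of_tendsto' (hMF F hF) fun p => avgL_le _ _ F b h 0⟩, ?_⟩
  rintro F h ⟨B, hB⟩
  have h1 := (hMF _ (Bdd.comp ⟨B, hB⟩ (fun x => x + h))).sub (hMF F ⟨B, hB⟩)
  have h2 : Tendsto (fun p => a (fun x => F (x + h)) p - a F p) u (𝓝 0) := by
    refine Tendsto.mono_left ?_ hu
    have h3 : Tendsto (fun p : Finset G × ℕ => 2 * B / ((p.2 : ℝ) + 1)) atTop (𝓝 0) := by
      have h4 : Tendsto (fun n : ℕ => 2 * B / ((n : ℝ) + 1)) atTop (𝓝 0) :=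
        tendsto_const_nhds.div_atTop (tendsto_natCast_atTop_atTop.atTop_add tendsto_const_nhds)
      refine h4.comp ?_
      rw [← prod_atTop_atTop_eq]
      exact tendsto_snd
    refine squeeze_zero_norm' ?_ h3
    filter_upwards [eventually_ge_atTop (({h}, 0) : Finset G × ℕ)] with p hp
    have hh : h ∈ p.1.toList := by
      rw [Finset.mem_toList]
      exact hp.1 (Finset.mem_singleton_self h)
    simp only [a, avgL_shift, Real.norm_eq_abs]
    exact avgL_shift_sub _ _ F B hB h hh 0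
  have := tendsto_nhds_unique h1 h2
  linarith

end construction

/-- multiplicative version -/
theorem exists_mean_mul (G : Type*) [CommGroup G] :
    ∃ M : (G → ℝ) →ₗ[ℝ] ℝ, IsMean M ∧
      ∀ (F : G → ℝ) (h : G), Bdd F → M (fun x => F (x * h)) = M F :=
  exists_mean (Additive G)

/-- A local mean on `[0,1)`, almost invariant under small real shifts. -/
theorem exists_local_mean :
    ∃ N : (ℝ → ℝ) →ₗ[ℝ] ℝ, IsMean N ∧
      (∀ (F : ℝ → ℝ) (b : ℝ), Bdd F → (∀ c, 0 ≤ c → c < 1 → b ≤ F c) → b ≤ N F) ∧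
      ∀ (F : ℝ → ℝ) (B h : ℝ), (∀ x, |F x| ≤ B) →
        |N (fun x => F (x + h)) - N F| ≤ 2 * B * |h| := by
  obtain ⟨M, hM, hs⟩ := exists_mean ℝ
  let N : (ℝ → ℝ) →ₗ[ℝ] ℝ := M.comp (LinearMap.funLeft ℝ ℝ Int.fract)
  have hN : ∀ F, N F = M (fun c => F (Int.fract c)) := fun F => rfl
  have hfr : Bdd (fun c : ℝ => Int.fract c) :=
    ⟨1, fun c => by rw [abs_of_nonneg (Int.fract_nonneg c)]; exact (Int.fract_lt_one c).le⟩
  have key : ∀ (F : ℝ → ℝ) (B h : ℝ), (∀ x, |F x| ≤ B) → 0 ≤ h →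
      |N (fun x => F (x + h)) - N F| ≤ 2 * B * h := by
    intro F B h hB hh
    have hF : Bdd F := ⟨B, hB⟩
    have hB0 : 0 ≤ B := (abs_nonneg _).trans (hB 0)
    have e1 : N F = M (fun c => F (Int.fract (c + h))) := by
      rw [hN, hs (fun c => F (Int.fract c)) h (hF.comp _)]
    have e2 : M (fun c => 2 * B * (Int.fract c + h - Int.fract (c + h))) = 2 * B * h := by
      rw [mean_const_mul, mean_sub, mean_add, hs (fun c => Int.fract c) h hfr, hM.const]
      ring
    have hpt : ∀ c : ℝ, |F (Int.fract c + h) - F (Int.fract (c + h))| ≤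
        2 * B * (Int.fract c + h - Int.fract (c + h)) := by
      intro c
      have e : Int.fract c + h - Int.fract (c + h) = ((⌊c + h⌋ - ⌊c⌋ : ℤ) : ℝ) := by
        simp only [Int.fract]; push_cast; ring
      have hk : 0 ≤ ⌊c + h⌋ - ⌊c⌋ := sub_nonneg.2 (Int.floor_le_floor (by linarith))
      rcases hk.eq_or_lt with h0 | h0
      · rw [← h0] at e
        have : Int.fract c + h = Int.fract (c + h) := by
          simp at e; linarith
        rw [this]; simp
      · have h1 : (1 : ℝ) ≤ ((⌊c + h⌋ - ⌊c⌋ : ℤ) : ℝ) := by exact_mod_cast h0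
        rw [e]
        have := abs_sub (F (Int.fract c + h)) (F (Int.fract (c + h)))
        have := hB (Int.fract c + h)
        have := hB (Int.fract (c + h))
        nlinarith
    have hb1 : Bdd (fun c : ℝ => F (Int.fract c + h) - F (Int.fract (c + h))) :=
      (hF.comp _).sub (hF.comp _)
    have hb2 : Bdd (fun c : ℝ => 2 * B * (Int.fract c + h - Int.fract (c + h))) :=
      ((hfr.add (Bdd.const h)).sub (hfr.comp _)).const_mul _
    rw [e1, hN, ← mean_sub, abs_le, ← e2]
    constructor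
    · rw [← mean_neg]
      exact hM.mono hb2.neg hb1 fun c => (abs_le.1 (hpt c)).1
    · exact hM.mono hb1 hb2 fun c => (abs_le.1 (hpt c)).2
  refine ⟨N, ⟨fun F b hF h => hM.le _ b (hF.comp _) fun c => h _⟩,
    fun F b hF h => hM.ge _ b (hF.comp _) fun c => h _ (Int.fract_nonneg c) (Int.fract_lt_one c),
    ?_⟩
  intro F B h hB
  rcases le_total 0 h with hh | hh
  · rw [abs_of_nonneg hh]; exact key F B h hB hh
  · have := key (fun x => F (x + h)) B (-h) (fun x => hB _) (by linarith)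
    simp only [neg_add_cancel_right] at this
    rw [abs_of_nonpos hh, abs_sub_comm]
    exact this

end Crest.Agent.R40A.H11
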