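import Mathlib

/-! Invariant means on discrete abelian groups, and a local mean on the real line. -/

set_option autoImplicit false

namespace Crest.Agent.R40A.H15

open Filter Topology

section
variable {A : Type*} [AddCommGroup A]

/-- Iterated progression averages. -/
noncomputable def avgL (N : ℕ) : List A → (A → ℝ) → A → ℝ
  | [], f, x => f x
  | s :: l, f, x => (∑ k ∈ Finset.range (N + 1), avgL N l f (x + k • s)) / (N + 1)

theorem avgL_add (N : ℕ) (l : List A) (f g : A → ℝ) (x : A) :
    avgL N l (f + g) x = avgL N l f x + avgL N l g x := by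
  induction l generalizing x with
  | nil => rfl
  | cons s l ih => simp only [avgL, ih, Finset.sum_add_distrib, add_div]

theorem avgL_smul (N : ℕ) (l : List A) (c : ℝ) (f : A → ℝ) (x : A) :
    avgL N l (c • f) x = c * avgL N l f x := by
  induction l generalizing x with
  | nil => rfl
  | cons s l ih => simp only [avgL, ih, ← Finset.mul_sum, mul_div_assoc]

theorem avgL_le (N : ℕ) (l : List A) (f : A → ℝ) (c : ℝ) (h : ∀ x, f x ≤ c) (x : A) :
    avgL N l f x ≤ c := by
  induction l generalizing x with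
  | nil => exact h x
  | cons s l ih =>
    simp only [avgL]
    rw [div_le_iff₀ (by positivity)]
    calc _ ≤ ∑ _k ∈ Finset.range (N + 1), c := Finset.sum_le_sum fun k _ => ih _
      _ = c * (N + 1) := by simp [mul_comm]

theorem le_avgL (N : ℕ) (l : List A) (f : A → ℝ) (c : ℝ) (h : ∀ x, c ≤ f x) (x : A) :
    c ≤ avgL N l f x := by
  have h1 := avgL_le N l ((-1 : ℝ) • f) (-c) (fun x => by simpa using h x) x
  rw [avgL_smul] at h1
  linarith

theorem abs_avgL_le (N : ℕ) (l : List A) (f : A → ℝ) (B : ℝ) (h : ∀ x, |f x| ≤ B) (x : A) :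
    |avgL N l f x| ≤ B :=
  abs_le.2 ⟨le_avgL N l f _ (fun x => (abs_le.1 (h x)).1) x,
    avgL_le N l f _ (fun x => (abs_le.1 (h x)).2) x⟩

theorem avgL_shift (N : ℕ) (l : List A) (f : A → ℝ) (t x : A) :
    avgL N l (fun y => f (y + t)) x = avgL N l f (x + t) := by
  induction l generalizing x with
  | nil => rfl
  | cons s l ih =>
    simp only [avgL, ih]
    congr 1
    refine Finset.sum_congr rfl fun k _ => ?_
    congr 1
    abel

theorem avgL_inv (N : ℕ) (l : List A) (f : A → ℝ) (B : ℝ) (h : ∀ x, |f x| ≤ B) (t : A)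
    (ht : t ∈ l) (x : A) : |avgL N l f (x + t) - avgL N l f x| ≤ 2 * B / (N + 1) := by
  induction l generalizing x with
  | nil => simp at ht
  | cons s l ih =>
    simp only [avgL]
    rw [← sub_div, abs_div, abs_of_pos (by positivity : (0 : ℝ) < N + 1)]
    by_cases hts : t = s
    · subst hts
      have h1 : ∑ k ∈ Finset.range (N + 1), avgL N l f (x + t + k • t) -
          ∑ k ∈ Finset.range (N + 1), avgL N l f (x + k • t) =
          avgL N l f (x + (N + 1) • t) - avgL N l f (x + (0 : ℕ) • t) := by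
        rw [← Finset.sum_sub_distrib,
          ← Finset.sum_range_sub (fun k : ℕ => avgL N l f (x + k • t)) (N + 1)]
        refine Finset.sum_congr rfl fun k _ => ?_
        congr 2
        rw [succ_nsmul]; abel
      rw [h1]
      gcongr
      have h2 := abs_avgL_le N l f B h (x + (N + 1) • t)
      have h3 := abs_avgL_le N l f B h (x + (0 : ℕ) • t)
      exact (abs_sub _ _).trans (by linarith)
    · have ht' : t ∈ l := by
        rcases List.mem_cons.1 ht with h' | h'
        · exact absurd h' hts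
        · exact h'
      rw [← Finset.sum_sub_distrib, div_le_iff₀ (by positivity)]
      calc _ ≤ ∑ k ∈ Finset.range (N + 1),
            |avgL N l f (x + t + k • s) - avgL N l f (x + k • s)| := Finset.abs_sum_le_sum_abs _ _
        _ ≤ ∑ _k ∈ Finset.range (N + 1), 2 * B / (N + 1) := by
            refine Finset.sum_le_sum fun k _ => ?_
            have := ih ht' (x + k • s)
            rwa [show x + k • s + t = x + t + k • s by abel] at this
        _ = _ := by simp [mul_comm]

/-- Bounded real functions. -/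
def bddSub (A : Type*) : Submodule ℝ (A → ℝ) where
  carrier := {f | ∃ B, ∀ x, |f x| ≤ B}
  add_mem' := by
    rintro f g ⟨B, hB⟩ ⟨C, hC⟩
    exact ⟨B + C, fun x => (abs_add_le _ _).trans (add_le_add (hB x) (hC x))⟩
  zero_mem' := ⟨0, fun x => by simp⟩
  smul_mem' := by
    rintro c f ⟨B, hB⟩
    exact ⟨|c| * B, fun x => by
      simp only [Pi.smul_apply, smul_eq_mul, abs_mul]
      exact mul_le_mul_of_nonneg_left (hB x) (abs_nonneg c)⟩

/-- Every abelian group carries an invariant mean (extended linearly to all functions). -/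
theorem exists_mean (A : Type*) [AddCommGroup A] :
    ∃ M : (A → ℝ) →ₗ[ℝ] ℝ,
      (∀ (f : A → ℝ) (B : ℝ), (∀ x, |f x| ≤ B) → ∀ c, (∀ x, f x ≤ c) → M f ≤ c) ∧
      (∀ (f : A → ℝ) (B : ℝ), (∀ x, |f x| ≤ B) → ∀ t, M (fun x => f (x + t)) = M f) := by
  classical
  let ω : Ultrafilter (Finset A × ℕ) := Ultrafilter.of atTop
  have hω : (ω : Filter (Finset A × ℕ)) ≤ atTop := Ultrafilter.of_le _
  let a : (A → ℝ) → Finset A × ℕ → ℝ := fun f i => avgL i.2 i.1.toList f 0
  have hex : ∀ f : bddSub A, ∃ L, Tendsto (a f) ω (𝓝 L) := by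
    rintro ⟨f, B, hB⟩
    have h : (↑(ω.map (a f)) : Filter ℝ) ≤ 𝓟 (Set.Icc (-B) B) := by
      rw [le_principal_iff]
      exact Filter.mem_map.2 (Eventually.of_forall fun k =>
        abs_le.1 (abs_avgL_le _ _ f B hB 0))
    obtain ⟨L, -, hL⟩ := (isCompact_Icc (a := -B) (b := B)).ultrafilter_le_nhds _ h
    exact ⟨L, hL⟩
  choose m hm using hex
  let M0 : bddSub A →ₗ[ℝ] ℝ :=
    { toFun := m
      map_add' := fun f g => by
        refine tendsto_nhds_unique (hm (f + g)) (((hm f).add (hm g)).congr fun k => ?_)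
        exact (avgL_add _ _ _ _ _).symm
      map_smul' := fun c f => by
        refine tendsto_nhds_unique (hm (c • f)) (((hm f).const_mul c).congr fun k => ?_)
        exact (avgL_smul _ _ _ _ _).symm }
  obtain ⟨M, hM⟩ := M0.exists_extend
  have hM' : ∀ f : bddSub A, M f = m f := fun f => by
    have := LinearMap.congr_fun hM f
    exact this
  refine ⟨M, fun f B hB c hc => ?_, fun f B hB t => ?_⟩
  · have h1 := hM' ⟨f, B, hB⟩
    simp only at h1
    rw [h1]
    exact le_of_tendsto' (hm ⟨f, B, hB⟩) fun k => avgL_le _ _ f c hc 0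
  · have h1 := hM' ⟨f, B, hB⟩
    have h2 := hM' ⟨fun x => f (x + t), B, fun x => hB _⟩
    simp only at h1 h2
    rw [h1, h2]
    have h3 := (hm ⟨fun x => f (x + t), B, fun x => hB _⟩).sub (hm ⟨f, B, hB⟩)
    have h4 : Tendsto (fun i : Finset A × ℕ => a (fun x => f (x + t)) i - a f i) atTop (𝓝 0) := by
      have h5 : Tendsto (fun i : Finset A × ℕ => 2 * B / ((i.2 : ℝ) + 1)) atTop (𝓝 0) := by
        have h6 : Tendsto (fun i : Finset A × ℕ => i.2) atTop atTop := by
          rw [← prod_atTop_atTop_eq]; exact tendsto_snd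
        have h7 : Tendsto (fun n : ℕ => 2 * B / ((n : ℝ) + 1)) atTop (𝓝 0) :=
          tendsto_const_nhds.div_atTop
            (tendsto_atTop_add_const_right _ 1 tendsto_natCast_atTop_atTop)
        exact h7.comp h6
      refine squeeze_zero_norm' ?_ h5
      filter_upwards [eventually_ge_atTop (({t} : Finset A), 0)] with i hi
      have ht : t ∈ i.1.toList := Finset.mem_toList.2 (hi.1 (Finset.mem_singleton_self t))
      have := avgL_inv i.2 i.1.toList f B hB t ht 0
      simp only [a, avgL_shift, Real.norm_eq_abs]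
      exact this
    exact sub_eq_zero.1 (tendsto_nhds_unique h3 (h4.mono_left hω))

end

/-- A mean carried by `[0,1)` that is almost invariant under small shifts. -/
theorem exists_local_mean :
    ∃ L : (ℝ → ℝ) →ₗ[ℝ] ℝ,
      (∀ (f : ℝ → ℝ) (B : ℝ), (∀ x, |f x| ≤ B) → ∀ c, (∀ x ∈ Set.Ico (0 : ℝ) 1, f x ≤ c) →
        L f ≤ c) ∧
      (∀ (f : ℝ → ℝ) (B : ℝ), (∀ x, |f x| ≤ B) → ∀ h,
        |L (fun x => f (x + h)) - L f| ≤ 2 * B * |h|) := by
  classical
  obtain ⟨M, hle, hinv⟩ := exists_mean ℝ
  let L : (ℝ → ℝ) →ₗ[ℝ] ℝ := M.comp (LinearMap.funLeft ℝ ℝ (Int.fract : ℝ → ℝ))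
  have hL : ∀ f, L f = M (fun x => f (Int.fract x)) := fun f => rfl
  have hge : ∀ (f : ℝ → ℝ) (B : ℝ), (∀ x, |f x| ≤ B) → ∀ c, (∀ x, c ≤ f x) → c ≤ M f := by
    intro f B hB c hc
    have := hle (-f) B (fun x => by simpa using hB x) (-c) (fun x => by simpa using hc x)
    rw [map_neg] at this
    linarith
  have hconst : ∀ c : ℝ, M (fun _ => c) = c := fun c =>
    le_antisymm (hle _ |c| (fun _ => le_rfl) c fun _ => le_rfl)
      (hge _ |c| (fun _ => le_rfl) c fun _ => le_rfl)
  have h1 : ∀ (f : ℝ → ℝ) (B : ℝ), (∀ x, |f x| ≤ B) → ∀ c, (∀ x ∈ Set.Ico (0 : ℝ) 1, f x ≤ c) →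
      L f ≤ c := fun f B hB c hc =>
    hle _ B (fun x => hB _) c fun x => hc _ ⟨Int.fract_nonneg x, Int.fract_lt_one x⟩
  have key : ∀ (f : ℝ → ℝ) (B : ℝ), (∀ x, |f x| ≤ B) → ∀ h, 0 ≤ h → h < 1 →
      L (fun x => f (x + h)) - L f ≤ 2 * B * h := by
    intro f B hB h h0 hh
    let χ : ℝ → ℝ := fun x => if 1 ≤ Int.fract x + h then 1 else 0
    have hfr : ∀ x, Int.fract (x + h) = Int.fract x + h - χ x := by
      intro x
      have hx0 := Int.fract_nonneg x
      have hx1 := Int.fract_lt_one x
      have hx : x = Int.fract x + ⌊x⌋ := (Int.fract_add_floor x).symm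
      simp only [χ]
      split_ifs with hc
      · rw [Int.fract_eq_iff]
        refine ⟨by linarith, by linarith, ⌊x⌋ + 1, ?_⟩
        push_cast; linarith
      · rw [Int.fract_eq_iff]
        refine ⟨by linarith, by linarith, ⌊x⌋, ?_⟩
        linarith
    have hχ : M χ = h := by
      have e1 := hinv Int.fract 1 (fun x => by
        rw [abs_of_nonneg (Int.fract_nonneg x)]; exact (Int.fract_lt_one x).le) h
      have e2 : (fun x => Int.fract (x + h)) = Int.fract + (fun _ => h) - χ := by
        funext x; simp [hfr]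
      rw [e2, map_sub, map_add, hconst] at e1
      linarith
    have hB0 : 0 ≤ B := (abs_nonneg _).trans (hB 0)
    have e3 := hinv (fun x => f (Int.fract x)) B (fun x => hB _) h
    rw [hL, hL, ← e3, ← hχ]
    have e4 := hle ((fun x => f (Int.fract x + h)) - (fun x => f (Int.fract (x + h))) -
      (2 * B) • χ) (4 * B) (fun x => by
        have a1 := abs_le.1 (hB (Int.fract x + h))
        have a2 := abs_le.1 (hB (Int.fract (x + h)))
        simp only [Pi.sub_apply, Pi.smul_apply, smul_eq_mul, χ]
        split_ifs <;> rw [abs_le] <;> constructor <;> linarith [a1.1, a1.2, a2.1, a2.2]) 0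
      (fun x => by
        have a1 := abs_le.1 (hB (Int.fract x + h))
        have a2 := abs_le.1 (hB (Int.fract (x + h)))
        have a3 := hfr x
        simp only [Pi.sub_apply, Pi.smul_apply, smul_eq_mul, χ] at a3 ⊢
        split_ifs at a3 ⊢ with hc
        · linarith [a1.2, a2.1]
        · rw [a3]; simp)
    rw [map_sub, map_sub, map_smul, smul_eq_mul] at e4
    rw [hχ] at e4 ⊢
    linarith
  have key2 : ∀ (f : ℝ → ℝ) (B : ℝ), (∀ x, |f x| ≤ B) → ∀ h, 0 ≤ h →
      |L (fun x => f (x + h)) - L f| ≤ 2 * B * h := by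
    intro f B hB h h0
    have hB0 : 0 ≤ B := (abs_nonneg _).trans (hB 0)
    by_cases hh : h < 1
    · rw [abs_le]
      refine ⟨?_, key f B hB h h0 hh⟩
      have := key (-f) B (fun x => by simpa using hB x) h h0 hh
      have e : (fun x => (-f) (x + h)) = -(fun x => f (x + h)) := rfl
      rw [e, map_neg, map_neg] at this
      linarith
    · have habs : ∀ g : ℝ → ℝ, (∀ x, |g x| ≤ B) → |L g| ≤ B := by
        intro g hg
        rw [abs_le]
        refine ⟨?_, h1 g B hg B fun x _ => (abs_le.1 (hg x)).2⟩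
        have := h1 (-g) B (fun x => by simpa using hg x) B fun x _ => by
          have := (abs_le.1 (hg x)).1
          simp only [Pi.neg_apply]; linarith
        rw [map_neg] at this
        linarith
      have a1 := habs (fun x => f (x + h)) fun x => hB _
      have a2 := habs f hB
      have a3 : B ≤ B * h := by nlinarith
      exact (abs_sub _ _).trans (by linarith)
  refine ⟨L, h1, fun f B hB h => ?_⟩
  rcases le_total 0 h with h0 | h0
  · rw [abs_of_nonneg h0]; exact key2 f B hB h h0
  · have := key2 (fun x => f (x + h)) B (fun x => hB _) (-h) (by linarith)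
    simp only [neg_add_cancel_right] at this
    rw [abs_sub_comm, abs_of_nonpos h0]
    exact this

end Crest.Agent.R40A.H15
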