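import Mathlib

/-! Invariant means on discrete abelian groups. -/

set_option autoImplicit false

namespace Crest.Agent.R40A

open Filter Topology

section
variable {G : Type*} [AddCommGroup G]

/-- almost invariant finite averages -/
theorem exists_almost_mean (S : Finset G) (ε : ℝ) (hε : 0 < ε) :
    ∃ m : (G → ℝ) →ₗ[ℝ] ℝ, m 1 = 1 ∧ (∀ f, (∀ x, 0 ≤ f x) → 0 ≤ m f) ∧
      ∀ s ∈ S, ∀ f : G → ℝ, ∀ C : ℝ, (∀ x, |f x| ≤ C) →
        |m (fun x => f (x + s)) - m f| ≤ ε * C := by
  classical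
  induction S using Finset.induction_on with
  | empty => exact ⟨LinearMap.proj 0, rfl, fun f hf => hf 0, by simp⟩
  | insert s S hs ih =>
    obtain ⟨m, h1, hp, hS⟩ := ih
    obtain ⟨n, hn⟩ := exists_nat_gt (2 / ε)
    have hn0 : (0 : ℝ) < n := lt_trans (by positivity) hn
    have hb : ∀ f : G → ℝ, ∀ C : ℝ, (∀ x, |f x| ≤ C) → |m f| ≤ C := by
      intro f C hf
      have a1 := hp (C • (1 : G → ℝ) - f) fun x => by
        have := (abs_le.1 (hf x)).2; simpa using this
      have a2 := hp (C • (1 : G → ℝ) + f) fun x => by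
        have := (abs_le.1 (hf x)).1; simp; linarith
      rw [map_sub, map_smul, h1] at a1
      rw [map_add, map_smul, h1] at a2
      simp only [smul_eq_mul, mul_one] at a1 a2
      exact abs_le.2 ⟨by linarith, by linarith⟩
    let sh : G → (G → ℝ) →ₗ[ℝ] (G → ℝ) := fun h => LinearMap.funLeft ℝ ℝ (fun x => x + h)
    have hsh : ∀ h f, sh h f = fun x => f (x + h) := fun h f => rfl
    refine ⟨(n : ℝ)⁻¹ • ∑ k ∈ Finset.range n, m ∘ₗ sh (k • s), ?_, ?_, ?_⟩
    · simp only [LinearMap.smul_apply, LinearMap.sum_apply, LinearMap.comp_apply, hsh]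
      have : ∀ k : ℕ, m (fun x => (1 : G → ℝ) (x + k • s)) = 1 := fun k => h1
      simp only [this, Finset.sum_const, Finset.card_range, nsmul_eq_mul, mul_one, smul_eq_mul]
      field_simp
    · intro f hf
      simp only [LinearMap.smul_apply, LinearMap.sum_apply, LinearMap.comp_apply, hsh, smul_eq_mul]
      exact mul_nonneg (by positivity) (Finset.sum_nonneg fun k _ => hp _ fun x => hf _)
    · intro t ht f C hf
      have hC : 0 ≤ C := (abs_nonneg _).trans (hf 0)
      simp only [LinearMap.smul_apply, LinearMap.sum_apply, LinearMap.comp_apply, hsh, smul_eq_mul]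
      rw [← mul_sub, ← Finset.sum_sub_distrib, abs_mul, abs_of_pos (inv_pos.2 hn0)]
      rcases Finset.mem_insert.1 ht with rfl | ht
      · have e : ∀ k : ℕ, (fun x => f (x + k • t + t)) = fun x => f (x + (k + 1) • t) := by
          intro k; funext x; rw [add_smul, one_smul, add_assoc]
        simp only [e]
        rw [Finset.sum_range_sub (fun k : ℕ => m fun x => f (x + k • t))]
        have b1 := hb (fun x => f (x + n • t)) C fun x => hf _
        have b2 := hb (fun x => f (x + (0 : ℕ) • t)) C fun x => hf _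
        have b3 := (abs_sub _ _).trans (add_le_add b1 b2)
        have : 2 ≤ ε * n := by rw [div_lt_iff₀ hε] at hn; linarith
        rw [inv_mul_le_iff₀ hn0]
        nlinarith
      · have e : ∀ k : ℕ, |m (fun x => f (x + k • s + t)) - m (fun x => f (x + k • s))| ≤ ε * C := by
          intro k
          have := hS t ht (fun x => f (x + k • s)) C fun x => hf _
          simpa only [add_right_comm] using this
        refine (mul_le_mul_of_nonneg_left ((Finset.abs_sum_le_sum_abs _ _).trans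
          (Finset.sum_le_sum fun k _ => e k)) (inv_pos.2 hn0).le).trans ?_
        simp only [Finset.sum_const, Finset.card_range, nsmul_eq_mul]
        rw [← mul_assoc, inv_mul_cancel₀ hn0.ne', one_mul]

/-- bounded functions -/
def bddSub (G : Type*) : Submodule ℝ (G → ℝ) where
  carrier := {f | ∃ C : ℝ, ∀ x, |f x| ≤ C}
  add_mem' := by
    rintro f g ⟨C, hC⟩ ⟨D, hD⟩
    exact ⟨C + D, fun x => (abs_add_le _ _).trans (add_le_add (hC x) (hD x))⟩
  zero_mem' := ⟨0, by simp⟩
  smul_mem' := by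
    rintro c f ⟨C, hC⟩
    exact ⟨|c| * C, fun x => by
      simp only [Pi.smul_apply, smul_eq_mul, abs_mul]
      exact mul_le_mul_of_nonneg_left (hC x) (abs_nonneg _)⟩

theorem pos_abs_le {X : Type*} (m : (X → ℝ) →ₗ[ℝ] ℝ) (h1 : m 1 = 1)
    (hp : ∀ f C, (∀ x, |f x| ≤ C) → (∀ x, 0 ≤ f x) → 0 ≤ m f)
    (f : X → ℝ) (C : ℝ) (hf : ∀ x, |f x| ≤ C) : |m f| ≤ C := by
  have a1 := hp (C • (1 : X → ℝ) - f) (2 * C) (fun x => by
    have := abs_le.1 (hf x); simp only [Pi.sub_apply, Pi.smul_apply, Pi.one_apply, smul_eq_mul]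
    rw [abs_le]; constructor <;> linarith [this.1, this.2]) fun x => by
    have := (abs_le.1 (hf x)).2; simpa using this
  have a2 := hp (C • (1 : X → ℝ) + f) (2 * C) (fun x => by
    have := abs_le.1 (hf x); simp only [Pi.add_apply, Pi.smul_apply, Pi.one_apply, smul_eq_mul]
    rw [abs_le]; constructor <;> linarith [this.1, this.2]) fun x => by
    have := (abs_le.1 (hf x)).1; simp; linarith
  rw [map_sub, map_smul, h1] at a1
  rw [map_add, map_smul, h1] at a2
  simp only [smul_eq_mul, mul_one] at a1 a2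
  exact abs_le.2 ⟨by linarith, by linarith⟩

/-- Invariant mean on a discrete abelian group (linear on all functions; positive and invariant on
bounded functions). -/
theorem exists_mean (G : Type*) [AddCommGroup G] :
    ∃ M : (G → ℝ) →ₗ[ℝ] ℝ, M 1 = 1 ∧
      (∀ (f : G → ℝ) (C : ℝ), (∀ x, |f x| ≤ C) → (∀ x, 0 ≤ f x) → 0 ≤ M f) ∧
      (∀ (f : G → ℝ) (C : ℝ) (h : G), (∀ x, |f x| ≤ C) → M (fun x => f (x + h)) = M f) := by
  classical
  choose m h1 hp hS using fun i : Finset G × ℕ =>
    exists_almost_mean i.1 (1 / ((i.2 : ℝ) + 1)) (by positivity)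
  let U : Ultrafilter (Finset G × ℕ) := Ultrafilter.of atTop
  have hU : (U : Filter (Finset G × ℕ)) ≤ atTop := Ultrafilter.of_le _
  have hb : ∀ i f C, (∀ x, |f x| ≤ C) → |m i f| ≤ C := fun i f C hf =>
    pos_abs_le (m i) (h1 i) (fun f _ _ h => hp i f h) f C hf
  have ex : ∀ f : bddSub G, ∃ L, Tendsto (fun i => m i f) U (𝓝 L) := by
    rintro ⟨f, C, hC⟩
    have h : (↑(U.map fun i => m i f) : Filter ℝ) ≤ 𝓟 (Metric.closedBall 0 C) := by
      rw [le_principal_iff]
      exact Filter.mem_map.2 (Eventually.of_forall fun k => by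
        simpa [Real.norm_eq_abs] using hb k f C hC)
    obtain ⟨L, -, hL⟩ := (isCompact_closedBall (0 : ℝ) C).ultrafilter_le_nhds _ h
    exact ⟨L, hL⟩
  choose L hL using ex
  let L' : bddSub G →ₗ[ℝ] ℝ :=
    { toFun := L
      map_add' := fun f g => by
        refine tendsto_nhds_unique (hL (f + g)) (((hL f).add (hL g)).congr fun i => ?_)
        simp
      map_smul' := fun c f => by
        refine tendsto_nhds_unique (hL (c • f)) (((hL f).const_mul c).congr fun i => ?_)
        simp }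
  obtain ⟨M, hM⟩ := LinearMap.exists_extend L'
  have hM' : ∀ (f : G → ℝ) (C : ℝ), (∀ x, |f x| ≤ C) → Tendsto (fun i => m i f) U (𝓝 (M f)) := by
    intro f C hf
    have := LinearMap.congr_fun hM ⟨f, C, hf⟩
    simp only [LinearMap.comp_apply, Submodule.subtype_apply] at this
    rw [this]
    exact hL ⟨f, C, hf⟩
  refine ⟨M, ?_, ?_, ?_⟩
  · refine tendsto_nhds_unique (hM' 1 1 (by simp)) ?_
    simp only [h1]; exact tendsto_const_nhds
  · intro f C hf h0
    exact ge_of_tendsto' (hM' f C hf) fun i => hp i f h0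
  · intro f C h hf
    have a := (hM' (fun x => f (x + h)) C fun x => hf _).sub (hM' f C hf)
    refine sub_eq_zero.1 (tendsto_nhds_unique a ?_)
    refine Tendsto.mono_left ?_ hU
    have t1 : Tendsto (fun i : Finset G × ℕ => 1 / ((i.2 : ℝ) + 1) * C) atTop (𝓝 0) := by
      have := (tendsto_one_div_add_atTop_nhds_zero_nat (𝕜 := ℝ)).mul_const C
      rw [zero_mul] at this
      refine this.comp ?_
      rw [← prod_atTop_atTop_eq]; exact tendsto_snd
    refine squeeze_zero_norm' ?_ t1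
    filter_upwards [eventually_ge_atTop (({h} : Finset G), 0)] with i hi
    exact hS i h (hi.1 (Finset.mem_singleton_self h)) f C hf

end

/-- multiplicative version -/
theorem exists_mean_mul (G : Type*) [CommGroup G] :
    ∃ M : (G → ℝ) →ₗ[ℝ] ℝ, M 1 = 1 ∧
      (∀ (f : G → ℝ) (C : ℝ), (∀ x, |f x| ≤ C) → (∀ x, 0 ≤ f x) → 0 ≤ M f) ∧
      (∀ (f : G → ℝ) (C : ℝ) (h : G), (∀ x, |f x| ≤ C) → M (fun x => f (x * h)) = M f) :=
  exists_mean (Additive G)

theorem pos_mono {X : Type*} (m : (X → ℝ) →ₗ[ℝ] ℝ)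
    (hp : ∀ f C, (∀ x, |f x| ≤ C) → (∀ x, 0 ≤ f x) → 0 ≤ m f)
    (f g : X → ℝ) (C D : ℝ) (hf : ∀ x, |f x| ≤ C) (hg : ∀ x, |g x| ≤ D) (h : ∀ x, f x ≤ g x) :
    m f ≤ m g := by
  have := hp (g - f) (D + C) (fun x => (abs_sub _ _).trans (add_le_add (hg x) (hf x)))
    fun x => by simpa using h x
  rw [map_sub] at this
  linarith

theorem pos_const {X : Type*} (m : (X → ℝ) →ₗ[ℝ] ℝ) (h1 : m 1 = 1) (c : ℝ) :
    m (fun _ => c) = c := by
  have : (fun _ : X => c) = c • (1 : X → ℝ) := by funext x; simp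
  rw [this, map_smul, h1, smul_eq_mul, mul_one]

/-- Jensen / Cauchy–Schwarz for a mean. -/
theorem pos_sq_le {X : Type*} (m : (X → ℝ) →ₗ[ℝ] ℝ) (h1 : m 1 = 1)
    (hp : ∀ f C, (∀ x, |f x| ≤ C) → (∀ x, 0 ≤ f x) → 0 ≤ m f)
    (f : X → ℝ) (C : ℝ) (hf : ∀ x, |f x| ≤ C) : (m f) ^ 2 ≤ m (fun x => f x ^ 2) := by
  have hm := pos_abs_le m h1 hp f C hf
  have := hp (fun x => (f x - m f) ^ 2) ((2 * C) ^ 2) (fun x => by
    rw [abs_pow]
    refine pow_le_pow_left₀ (abs_nonneg _) ((abs_sub _ _).trans ?_) 2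
    linarith [hf x]) fun x => sq_nonneg _
  have e : (fun x => (f x - m f) ^ 2) =
      (fun x => f x ^ 2) - (2 * m f) • f + (m f ^ 2) • (1 : X → ℝ) := by
    funext x; simp; ring
  rw [e, map_add, map_sub, map_smul, map_smul, h1] at this
  simp only [smul_eq_mul] at this
  nlinarith

end Crest.Agent.R40A
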