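import Crest.Agent.R40A.Inv

/-! Projection of the colour indicators onto the continuous vectors. -/

set_option autoImplicit false

namespace Crest.Agent.R40A

open MeasureTheory Set Filter Topology

/-- The rigidity statement (proved in `Rigid.lean`), for one Hilbert space. -/
def RigidFor (H : Type*) [NormedAddCommGroup H] [InnerProductSpace ℝ H] : Prop :=
  ∀ (T : ℂ → H →ₗᵢ[ℝ] H) (U : ℂ → H →ₗᵢ[ℝ] H), (∀ g, T 0 g = g) →
    (∀ x y g, T (x + y) g = T x (T y g)) →
    (∀ u x g, ‖u‖ = 1 → U u (T x g) = T (u * x) (U u g)) →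
    ∀ f : H, (∀ u, ‖u‖ = 1 → U u f = f) →
    (∀ g, Continuous (fun x => T x g) → inner ℝ f g = 0) →
    ∀ y, y ≠ 0 → inner ℝ (T y f) f = 0

section abstract
variable {H : Type*} [NormedAddCommGroup H] [InnerProductSpace ℝ H]

/-- continuous vectors -/
def contSub (T : ℂ → H →ₗᵢ[ℝ] H) : Submodule ℝ H where
  carrier := {g | Continuous fun x => T x g}
  add_mem' := by
    intro a b ha hb
    simp only [mem_setOf_eq, map_add] at *
    exact ha.add hb
  zero_mem' := by simp only [mem_setOf_eq, map_zero]; exact continuous_const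
  smul_mem' := by
    intro c a ha
    simp only [mem_setOf_eq, map_smul] at *
    exact ha.const_smul c

theorem isClosed_contSub (T : ℂ → H →ₗᵢ[ℝ] H) : IsClosed (contSub T : Set H) := by
  refine isClosed_of_closure_subset fun g hg => ?_
  change Continuous fun x => T x g
  refine continuous_of_uniform_approx_of_continuous fun u hu => ?_
  obtain ⟨ε, hε, hεu⟩ := Metric.mem_uniformity_dist.1 hu
  obtain ⟨g', hg', hd⟩ := Metric.mem_closure_iff.1 hg ε hε
  refine ⟨fun x => T x g', hg', fun x => hεu ?_⟩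
  rwa [(T x).dist_map]

theorem proj_inner [CompleteSpace H] (hR : RigidFor H)
    (T : ℂ → H →ₗᵢ[ℝ] H) (U : ℂ → H →ₗᵢ[ℝ] H) (h0 : ∀ g, T 0 g = g)
    (hadd : ∀ x y g, T (x + y) g = T x (T y g))
    (hU : ∀ u x g, ‖u‖ = 1 → U u (T x g) = T (u * x) (U u g))
    (hUi : ∀ u g, ‖u‖ = 1 → U u (U u⁻¹ g) = g)
    (f p : H) (hf : ∀ u, ‖u‖ = 1 → U u f = f) (hp : p ∈ contSub T)
    (hperp : ∀ g ∈ contSub T, inner ℝ (f - p) g = 0) (y : ℂ) (hy : y ≠ 0) :
    inner ℝ (T y p) p = inner ℝ (T y f) f := by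
  have hUK : ∀ u g, ‖u‖ = 1 → g ∈ contSub T → U u g ∈ contSub T := by
    intro u g hu hg
    change Continuous fun x => T x (U u g)
    have hu0 : u ≠ 0 := by rintro rfl; simp at hu
    have : (fun x => T x (U u g)) = fun x => U u (T (u⁻¹ * x) g) := by
      funext x; rw [hU u _ _ hu, mul_inv_cancel_left₀ hu0]
    rw [this]
    exact (U u).continuous.comp (Continuous.comp hg (continuous_const.mul continuous_id))
  have hTK : ∀ x g, g ∈ contSub T → T x g ∈ contSub T := by
    intro x g hg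
    change Continuous fun z => T z (T x g)
    simp only [← hadd]
    exact Continuous.comp hg (continuous_id.add continuous_const)
  have hUp : ∀ u, ‖u‖ = 1 → U u p = p := by
    intro u hu
    have h1 : ∀ g ∈ contSub T, inner ℝ (f - U u p) g = 0 := by
      intro g hg
      have hu' : ‖u⁻¹‖ = 1 := by rw [norm_inv, hu, inv_one]
      have := hperp _ (hUK _ g hu' hg)
      rw [← (U u).inner_map_map, hUi u g hu, map_sub, hf u hu] at this
      exact this
    have hm : U u p - p ∈ contSub T := (contSub T).sub_mem (hUK u p hu hp) hp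
    have h2 : inner ℝ (U u p - p) (U u p - p) = 0 := by
      have e : U u p - p = (f - p) - (f - U u p) := by abel
      nth_rewrite 1 [e]
      rw [inner_sub_left, hperp _ hm, h1 _ hm, sub_zero]
    exact sub_eq_zero.1 (inner_self_eq_zero.1 h2)
  have hρ := hR T U h0 hadd hU (f - p) (fun u hu => by rw [map_sub, hf u hu, hUp u hu])
    (fun g hg => hperp g hg) y hy
  have a1 : inner ℝ (T y p) (f - p) = 0 := by
    rw [real_inner_comm]; exact hperp _ (hTK y p hp)
  have a2 : inner ℝ (T y (f - p)) p = 0 := by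
    rw [← (T (-y)).inner_map_map, ← hadd, neg_add_cancel, h0]
    exact hperp _ (hTK (-y) p hp)
  have e : f = p + (f - p) := by abel
  generalize f - p = r at *
  subst e
  rw [map_add, inner_add_left, inner_add_right, inner_add_right, a1, a2, hρ]
  ring

end abstract

/-- the affine reparametrisation of colourings -/
def tau {n : ℕ} (u y : ℂ) (ω : ℂ → Fin n) : ℂ → Fin n := fun z => ω (u * z + y)

theorem exists_proj {n : ℕ} (P : Measure (ℂ → Fin n)) [IsProbabilityMeasure P]
    (hR : RigidFor (Lp ℝ 2 P))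
    (hP : ∀ u y : ℂ, ‖u‖ = 1 →
        MeasurePreserving (fun (ω : ℂ → Fin n) (z : ℂ) => ω (u * z + y)) P P)
    (hN : ∀ x y : ℂ, ‖x - y‖ = 1 → P {ω | ω x = ω y} = 0) :
    ∃ F : Fin n → ℂ → Lp ℝ 2 P, (∀ a, UniformContinuous (F a)) ∧ (∀ a x, 0 ≤ F a x) ∧
      (∀ x, ∀ᵐ ω ∂P, ∑ a, F a x ω = 1) ∧
      ∀ a x y, ‖x - y‖ = 1 → inner ℝ (F a x) (F a y) = 0 := by
  classical
  have hP' : ∀ u y : ℂ, ‖u‖ = 1 → MeasurePreserving (tau u y) P P := hP
  let V : ℂ → ℂ → (Lp ℝ 2 P →ₗᵢ[ℝ] Lp ℝ 2 P) := fun u y =>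
    if h : ‖u‖ = 1 then Lp.compMeasurePreservingₗᵢ ℝ (tau u y) (hP' u y h) else LinearIsometry.id
  have hV : ∀ u y (h : ‖u‖ = 1) g, V u y g = Lp.compMeasurePreserving (tau u y) (hP' u y h) g := by
    intro u y h g
    simp only [V, dif_pos h]; rfl
  have hVae : ∀ u y (_ : ‖u‖ = 1) (g : Lp ℝ 2 P), V u y g =ᵐ[P] g ∘ tau u y := by
    intro u y h g
    rw [hV u y h]; exact Lp.coeFn_compMeasurePreserving _ _
  have hVV : ∀ u y u' y' (_ : ‖u‖ = 1) (_ : ‖u'‖ = 1) g,
      V u y (V u' y' g) = V (u * u') (u * y' + y) g := by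
    intro u y u' y' h h' g
    have h'' : ‖u * u'‖ = 1 := by rw [norm_mul, h, h', one_mul]
    rw [hV u y h, hV u' y' h', hV _ _ h'', ← Lp.compMeasurePreserving_comp_apply]
    congr 2
    funext ω z
    simp only [tau, Function.comp]
    congr 1; ring
  have hV1 : ∀ g, V 1 0 g = g := by
    intro g
    rw [hV 1 0 norm_one]
    have : tau (n := n) 1 0 = id := by funext ω z; simp [tau]
    simp only [this]
    exact Lp.compMeasurePreserving_id_apply g
  let T : ℂ → (Lp ℝ 2 P →ₗᵢ[ℝ] Lp ℝ 2 P) := fun x => V 1 x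
  let U : ℂ → (Lp ℝ 2 P →ₗᵢ[ℝ] Lp ℝ 2 P) := fun u => V u 0
  have h0 : ∀ g, T 0 g = g := hV1
  have hadd : ∀ x y g, T (x + y) g = T x (T y g) := by
    intro x y g
    simp only [T]
    rw [hVV _ _ _ _ norm_one norm_one, one_mul, one_mul, add_comm]
  have hU : ∀ u x g, ‖u‖ = 1 → U u (T x g) = T (u * x) (U u g) := by
    intro u x g hu
    simp only [T, U]
    rw [hVV _ _ _ _ hu norm_one, hVV _ _ _ _ norm_one hu]
    simp
  have hUi : ∀ u g, ‖u‖ = 1 → U u (U u⁻¹ g) = g := by
    intro u g hu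
    have hu0 : u ≠ 0 := by rintro rfl; simp at hu
    have hu' : ‖u⁻¹‖ = 1 := by rw [norm_inv, hu, inv_one]
    simp only [U]
    rw [hVV _ _ _ _ hu hu', mul_inv_cancel₀ hu0, mul_zero, add_zero, hV1]
  have hme : ∀ a : Fin n, MeasurableSet {ω : ℂ → Fin n | ω 0 = a} := fun a =>
    measurableSet_eq_fun (measurable_pi_apply 0) measurable_const
  let f : Fin n → Lp ℝ 2 P := fun a => indicatorConstLp 2 (hme a) (measure_ne_top _ _) (1 : ℝ)
  have hfae : ∀ a, f a =ᵐ[P] fun ω => if ω 0 = a then 1 else 0 := by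
    intro a
    filter_upwards [indicatorConstLp_coeFn (p := 2) (hs := hme a) (hμs := measure_ne_top P _)
      (c := (1 : ℝ))] with ω hω
    rw [hω]; simp [indicator]
  have hVf : ∀ u y (_ : ‖u‖ = 1) a, V u y (f a) =ᵐ[P] fun ω => if ω y = a then 1 else 0 := by
    intro u y h a
    filter_upwards [hVae u y h (f a), (hP' u y h).quasiMeasurePreserving.ae (hfae a)] with ω h1 h2
    rw [h1, Function.comp, h2]; simp [tau]
  have hUf : ∀ a u, ‖u‖ = 1 → U u (f a) = f a := fun a u hu =>
    Lp.ext ((hVf u 0 hu a).trans (hfae a).symm)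
  haveI : CompleteSpace (contSub T) := (isClosed_contSub T).completeSpace_coe
  let p : Fin n → Lp ℝ 2 P := fun a => (contSub T).starProjection (f a)
  have hpK : ∀ a, p a ∈ contSub T := fun a => Submodule.starProjection_apply_mem _ _
  have hperp : ∀ a, ∀ g ∈ contSub T, inner ℝ (f a - p a) g = 0 := fun a g hg =>
    Submodule.starProjection_inner_eq_zero _ _ hg
  have hTabs : ∀ x (g : Lp ℝ 2 P), T x |g| = |T x g| := by
    intro x g
    refine Lp.ext ?_
    filter_upwards [hVae 1 x norm_one |g|, hVae 1 x norm_one g, Lp.coeFn_abs (T x g),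
      (hP' 1 x norm_one).quasiMeasurePreserving.ae (Lp.coeFn_abs g)] with ω h1 h2 h3 h4
    rw [h3]
    change V 1 x |g| ω = |V 1 x g ω|
    rw [h1, h2, Function.comp, h4]; rfl
  have hp0 : ∀ a, 0 ≤ p a := by
    intro a
    have habs : |p a| ∈ contSub T := by
      change Continuous fun x => T x |p a|
      simp only [hTabs]
      have hl : LipschitzWith 1 (fun g : Lp ℝ 2 P => |g|) :=
        LipschitzWith.of_dist_le_mul fun g g' => by
          simpa [dist_eq_norm] using norm_abs_sub_abs g g'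
      exact hl.continuous.comp (hpK a)
    have hf0 : 0 ≤ f a := by
      rw [← Lp.coeFn_nonneg]
      filter_upwards [hfae a] with ω hω
      rw [hω]; simp only [Pi.zero_apply]; split_ifs <;> norm_num
    have hle : ‖f a - |p a|‖ ≤ ‖f a - p a‖ := by
      have := norm_abs_sub_abs (f a) (p a)
      rwa [abs_of_nonneg hf0] at this
    have hin := hperp a _ ((contSub T).sub_mem (hpK a) habs)
    have e : f a - |p a| = (f a - p a) + (p a - |p a|) := by abel
    have h2 := norm_add_sq_real (f a - p a) (p a - |p a|)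
    rw [← e, hin] at h2
    have h3 : ‖p a - |p a|‖ ^ 2 ≤ 0 := by
      nlinarith [norm_nonneg (f a - |p a|), norm_nonneg (f a - p a)]
    have h4 : ‖p a - |p a|‖ = 0 := by
      exact pow_eq_zero_iff (two_ne_zero) |>.1 (le_antisymm h3 (sq_nonneg _))
    rw [sub_eq_zero.1 (norm_eq_zero.1 h4)]
    exact abs_nonneg _
  have hsumT : ∀ x, ∀ᵐ ω ∂P, (T x (∑ a, f a)) ω = 1 := by
    intro x
    rw [map_sum]
    have h1 : ∀ᵐ ω ∂P, ∀ a, T x (f a) ω = if ω x = a then 1 else 0 :=
      ae_all_iff.2 fun a => hVf 1 x norm_one a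
    filter_upwards [h1, Lp.coeFn_finsetSum Finset.univ (fun a => T x (f a))] with ω h1 h2
    rw [h2, Finset.sum_apply]
    simp [h1]
  have hsumK : (∑ a, f a) ∈ contSub T := by
    change Continuous fun x => T x (∑ a, f a)
    have : (fun x => T x (∑ a, f a)) = fun _ => T 0 (∑ a, f a) := by
      funext x
      refine Lp.ext ?_
      filter_upwards [hsumT x, hsumT 0] with ω h1 h2
      rw [h1, h2]
    rw [this]; exact continuous_const
  have hsum : ∑ a, p a = ∑ a, f a := by
    simp only [p]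
    rw [← map_sum]
    exact Submodule.starProjection_eq_self_iff.2 hsumK
  refine ⟨fun a x => T x (p a), fun a => ?_, fun a x => ?_, fun x => ?_, fun a x y hxy => ?_⟩
  · refine Metric.uniformContinuous_iff.2 fun ε hε => ?_
    obtain ⟨δ, hδ, h⟩ := Metric.continuousAt_iff.1 (Continuous.continuousAt (x := 0) (hpK a)) ε hε
    refine ⟨δ, hδ, fun {x y} hxy => ?_⟩
    have := h (x := x - y) (by rwa [dist_zero_right, ← dist_eq_norm])
    rw [← (T y).dist_map, ← hadd, ← hadd] at this
    simpa using this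
  · change 0 ≤ T x (p a)
    rw [← abs_of_nonneg (hp0 a), hTabs]; exact abs_nonneg _
  · have := hsumT x
    rw [← hsum, map_sum] at this
    filter_upwards [this, Lp.coeFn_finsetSum Finset.univ (fun a => T x (p a))] with ω h1 h2
    rw [h2, Finset.sum_apply] at h1
    exact h1
  · have hne : x - y ≠ 0 := by rintro h; rw [h] at hxy; simp at hxy
    have h1 := proj_inner hR T U h0 hadd hU hUi (f a) (p a) (hUf a) (hpK a) (hperp a) _ hne
    rw [← (T y).inner_map_map, ← hadd, add_sub_cancel] at h1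
    rw [h1, L2.inner_def]
    refine integral_eq_zero_of_ae ?_
    have h2 : ∀ᵐ ω ∂P, ω (x - y) ≠ ω 0 := by
      have := hN (x - y) 0 (by rwa [sub_zero])
      exact measure_eq_zero_iff_ae_notMem.1 this
    filter_upwards [hVf 1 (x - y) norm_one a, hfae a, h2] with ω h3 h4 h5
    change inner ℝ (V 1 (x - y) (f a) ω) (f a ω) = 0
    rw [h3, h4]
    by_cases h6 : ω 0 = a
    · have : ω (x - y) ≠ a := h6 ▸ h5
      simp [this]
    · simp [h6]

end Crest.Agent.R40A
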