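import Crest.Agent.R40A.LMean

/-! Rigidity of radial positive definite functions on the discrete plane. -/

set_option autoImplicit false

namespace Crest.Agent.R40A.H11

open Filter Finset Polynomial
open scoped Topology InnerProductSpace

variable {H : Type*} [NormedAddCommGroup H] [InnerProductSpace ℝ H]

section oneparam
variable {A : Type*} [AddCommGroup A]

theorem inner_shift (S : A → H →ₗᵢ[ℝ] H) (h0 : ∀ v, S 0 v = v)
    (hS : ∀ x y v, S (x + y) v = S x (S y v)) (x : A) (g v : H) :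
    ⟪S x g, v⟫_ℝ = ⟪g, S (-x) v⟫_ℝ := by
  rw [← (S x).inner_map_map g (S (-x) v), ← hS, add_neg_cancel, h0]

theorem inner_two (S : A → H →ₗᵢ[ℝ] H) (h0 : ∀ v, S 0 v = v)
    (hS : ∀ x y v, S (x + y) v = S x (S y v)) (x y : A) (g : H) :
    ⟪S x g, S y g⟫_ℝ = ⟪S (x - y) g, g⟫_ℝ := by
  rw [← (S y).inner_map_map (S (x - y) g) g, ← hS, add_sub_cancel]

theorem abs_inner_le (S : A → H →ₗᵢ[ℝ] H) (x : A) (g v : H) :
    |⟪S x g, v⟫_ℝ| ≤ ‖g‖ * ‖v‖ := by
  have := abs_real_inner_le_norm (S x g) v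
  rwa [(S x).norm_map] at this

/-- Cauchy–Schwarz: `(∑ ψ(x i))^2 ≤ |g|^2 ∑∑ ψ(x i - x j)`. -/
theorem cs_sum {ι : Type*} (S : A → H →ₗᵢ[ℝ] H) (h0 : ∀ v, S 0 v = v)
    (hS : ∀ x y v, S (x + y) v = S x (S y v)) (s : Finset ι) (x : ι → A) (g : H) :
    ‖∑ i ∈ s, S (x i) g‖ ^ 2 = ∑ i ∈ s, ∑ j ∈ s, ⟪S (x i - x j) g, g⟫_ℝ := by
  rw [← real_inner_self_eq_norm_sq, sum_inner]
  refine Finset.sum_congr rfl fun i _ => ?_
  rw [inner_sum]
  exact Finset.sum_congr rfl fun j _ => inner_two S h0 hS _ _ g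

end oneparam

theorem natDegree_taylor_sub (Q : ℝ[X]) (hQ : 2 ≤ Q.natDegree) (a b : ℝ) (hab : a ≠ b) :
    0 < (taylor a Q - taylor b Q).natDegree ∧
      (taylor a Q - taylor b Q).natDegree < Q.natDegree := by
  have hQ0 : Q ≠ 0 := by rintro rfl; simp at hQ
  constructor
  · set n := Q.natDegree - 1 with hn
    have hR : (hasseDeriv n Q).natDegree = 1 := by rw [natDegree_hasseDeriv]; omega
    have hR1 : (hasseDeriv n Q).coeff 1 ≠ 0 := by
      have : hasseDeriv n Q ≠ 0 := by intro h; rw [h] at hR; simp at hR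
      have h2 := leadingCoeff_ne_zero.2 this
      rwa [leadingCoeff, hR] at h2
    have hc : (taylor a Q - taylor b Q).coeff n ≠ 0 := by
      rw [coeff_sub, taylor_coeff, taylor_coeff, eq_X_add_C_of_natDegree_le_one hR.le]
      simp only [eval_add, eval_mul, eval_C, eval_X]
      intro h
      apply hab
      have : (hasseDeriv n Q).coeff 1 * (a - b) = 0 := by linarith
      rcases mul_eq_zero.1 this with h | h
      · exact absurd h hR1
      · linarith
    have := le_natDegree_of_ne_zero hc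
    omega
  · have h1 : (taylor a Q - taylor b Q).degree < (taylor a Q).degree :=
      degree_sub_lt (by rw [degree_taylor, degree_taylor]) (by simpa using hQ0)
        (by rw [leadingCoeff_taylor, leadingCoeff_taylor])
    rw [degree_taylor] at h1
    by_cases h : taylor a Q - taylor b Q = 0
    · rw [h]; simp; omega
    · exact natDegree_lt_natDegree h h1

theorem vdc_one [CompleteSpace H] (N : (ℝ → ℝ) →ₗ[ℝ] ℝ) (hN : IsMean N)
    (hNs : ∀ (F : ℝ → ℝ) (B h : ℝ), (∀ x, |F x| ≤ B) →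
        |N (fun x => F (x + h)) - N F| ≤ 2 * B * |h|)
    (S : ℝ → H →ₗᵢ[ℝ] H) (h0 : ∀ v, S 0 v = v)
    (hS : ∀ x y v, S (x + y) v = S x (S y v)) (g : H)
    (hg : ∀ w, Continuous (fun t => S t w) → ⟪w, g⟫_ℝ = 0) (α β : ℝ) (hα : α ≠ 0) (v : H) :
    N (fun c => ⟪S (α * c + β) g, v⟫_ℝ) = 0 := by
  let φ : H →L[ℝ] ℝ := LinearMap.mkContinuous
    { toFun := fun v => N (fun c => ⟪S (α * c + β) g, v⟫_ℝ)
      map_add' := fun v w => by simp only [inner_add_right]; exact mean_add N _ _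
      map_smul' := fun r v => by
        simp only [real_inner_smul_right]; exact mean_const_mul N _ _ } ‖g‖
    fun v => hN.abs_le _ _ fun c => abs_inner_le S _ g v
  obtain ⟨a, ha⟩ := (InnerProductSpace.toDual ℝ H).surjective φ
  have ha' : ∀ v, ⟪a, v⟫_ℝ = N (fun c => ⟪S (α * c + β) g, v⟫_ℝ) := by
    intro v
    have : φ v = ⟪a, v⟫_ℝ := by rw [← ha]; rfl
    rw [← this]; rfl
  have hlip : ∀ t, ‖S t a - a‖ ≤ 2 * ‖g‖ * |t / α| := by
    intro t
    have key : ∀ v, |⟪S t a - a, v⟫_ℝ| ≤ 2 * (‖g‖ * ‖v‖) * |t / α| := by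
      intro v
      rw [inner_sub_left, inner_shift S h0 hS t a v, ha', ha']
      have := hNs (fun c => ⟪S (α * c + β) g, v⟫_ℝ) (‖g‖ * ‖v‖) (t / α)
        fun c => abs_inner_le S _ g v
      convert this using 4
      funext c
      rw [← inner_shift S h0 hS t, ← hS]
      congr 3
      field_simp
      ring
    have h1 := key (S t a - a)
    rw [real_inner_self_eq_norm_sq, abs_of_nonneg (sq_nonneg _)] at h1
    rcases (norm_nonneg (S t a - a)).eq_or_lt with h | h
    · rw [← h]; positivity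
    · nlinarith
  have hcont : Continuous (fun t => S t a) := by
    have : LipschitzWith (Real.toNNReal (2 * ‖g‖ / |α|)) (fun t => S t a) := by
      refine LipschitzWith.of_dist_le_mul fun s t => ?_
      rw [dist_eq_norm, Real.dist_eq, Real.coe_toNNReal _ (by positivity)]
      have e : S s a - S t a = S t (S (s - t) a - a) := by
        rw [map_sub, ← hS, add_sub_cancel]
      rw [e, (S t).norm_map]
      refine (hlip _).trans (le_of_eq ?_)
      rw [abs_div]; ring
    exact this.continuous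
  have haa : ⟪a, a⟫_ℝ = 0 := by
    rw [ha']
    have : (fun c => ⟪S (α * c + β) g, a⟫_ℝ) = fun _ => 0 := by
      funext c
      rw [inner_shift S h0 hS, real_inner_comm]
      apply hg
      have : (fun t => S t (S (-(α * c + β)) a)) = fun t => S (t + -(α * c + β)) a := by
        funext t; rw [hS]
      rw [this]
      exact hcont.comp (continuous_id.add continuous_const)
    rw [this, hN.const]
  have : a = 0 := inner_self_eq_zero.1 haa
  rw [← ha', this, inner_zero_left]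

theorem vdc [CompleteSpace H] (N : (ℝ → ℝ) →ₗ[ℝ] ℝ) (hN : IsMean N)
    (hNs : ∀ (F : ℝ → ℝ) (B h : ℝ), (∀ x, |F x| ≤ B) →
        |N (fun x => F (x + h)) - N F| ≤ 2 * B * |h|)
    (S : ℝ → H →ₗᵢ[ℝ] H) (h0 : ∀ v, S 0 v = v)
    (hS : ∀ x y v, S (x + y) v = S x (S y v)) (g : H)
    (hg : ∀ w, Continuous (fun t => S t w) → ⟪w, g⟫_ℝ = 0) (n : ℕ) :
    ∀ (Q : ℝ[X]), Q.natDegree = n → 0 < n → ∀ v : H,
      N (fun c => ⟪S (Q.eval c) g, v⟫_ℝ) = 0 := by
  induction n using Nat.strong_induction_on with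
  | _ n ih =>
  intro Q hQ hn v
  rcases Nat.lt_or_ge n 2 with h2 | h2
  · have hQ1 : Q.natDegree = 1 := by omega
    have hc : Q.coeff 1 ≠ 0 := by
      have : Q ≠ 0 := by intro h; rw [h] at hQ1; simp at hQ1
      have h2 := leadingCoeff_ne_zero.2 this
      rwa [leadingCoeff, hQ1] at h2
    have := vdc_one N hN hNs S h0 hS g hg (Q.coeff 1) (Q.coeff 0) hc v
    convert this using 5
    rename_i c
    conv_lhs => rw [eq_X_add_C_of_natDegree_le_one hQ1.le]
    simp
  · have main : ∀ v : H, N (fun c => ⟪S (Q.eval c) g, v⟫_ℝ) ≤ 0 := by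
      intro v
      set a := N (fun c => ⟪S (Q.eval c) g, v⟫_ℝ) with ha
      have step : ∀ m : ℕ, 0 < m → ∀ h : ℝ, 0 < h →
          (m : ℝ) ^ 2 * a ≤ m * (‖g‖ ^ 2 + ‖v‖ ^ 2) / 2 +
            (m : ℝ) ^ 2 * (2 * (‖g‖ * ‖v‖) * ((m : ℝ) ^ 2 * h)) := by
        intro m hm h hh
        have hm' : (0 : ℝ) < m := by exact_mod_cast hm
        let W : ℝ → H := fun c => ∑ i ∈ range (m ^ 2), S (Q.eval (c + i * h)) g
        have h1 : ∀ i ∈ range (m ^ 2), a ≤ N (fun c => ⟪S (Q.eval (c + i * h)) g, v⟫_ℝ) +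
            2 * (‖g‖ * ‖v‖) * ((m : ℝ) ^ 2 * h) := by
          intro i hi
          have := hNs (fun c => ⟪S (Q.eval c) g, v⟫_ℝ) (‖g‖ * ‖v‖) (i * h)
            fun c => abs_inner_le S _ g v
          have hi' : (i : ℝ) ≤ (m : ℝ) ^ 2 := by exact_mod_cast (Finset.mem_range.1 hi).le
          have h3 : |(i : ℝ) * h| ≤ (m : ℝ) ^ 2 * h := by
            rw [abs_of_nonneg (by positivity)]; gcongr
          have h4 : 2 * (‖g‖ * ‖v‖) * |(i : ℝ) * h| ≤ 2 * (‖g‖ * ‖v‖) * ((m : ℝ) ^ 2 * h) := by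
            gcongr
          have := (abs_le.1 this).1
          linarith
        have h2' := Finset.sum_le_sum h1
        rw [Finset.sum_add_distrib] at h2'
        simp only [Finset.sum_const, Finset.card_range, nsmul_eq_mul, Nat.cast_pow] at h2'
        have hW2 : N (fun c => ‖W c‖ ^ 2) = (m : ℝ) ^ 2 * ‖g‖ ^ 2 := by
          have e : (fun c => ‖W c‖ ^ 2) = fun c => ∑ i ∈ range (m ^ 2), ∑ j ∈ range (m ^ 2),
              ⟪S (Q.eval (c + i * h) - Q.eval (c + j * h)) g, g⟫_ℝ := by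
            funext c; exact cs_sum S h0 hS _ _ g
          rw [e, mean_sum]
          have e2 : ∀ i ∈ range (m ^ 2), N (fun c => ∑ j ∈ range (m ^ 2),
              ⟪S (Q.eval (c + i * h) - Q.eval (c + j * h)) g, g⟫_ℝ) = ‖g‖ ^ 2 := by
            intro i hi
            rw [mean_sum, Finset.sum_eq_single i]
            · simp only [sub_self, h0, real_inner_self_eq_norm_sq]; exact hN.const _
            · intro j _ hji
              have hab : (i : ℝ) * h ≠ j * h := by
                intro e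
                have := mul_right_cancel₀ hh.ne' e
                exact hji (by exact_mod_cast this.symm)
              obtain ⟨p1, p2⟩ := natDegree_taylor_sub Q (by omega) _ _ hab
              have := ih _ (by omega) _ rfl p1 g
              simpa only [eval_sub, taylor_eval] using this
            · intro hi'; exact absurd hi hi'
          rw [Finset.sum_congr rfl e2]
          simp
        have hbW : Bdd (fun c => ‖W c‖ ^ 2) := by
          refine ⟨((m : ℝ) ^ 2 * ‖g‖) ^ 2, fun c => ?_⟩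
          rw [abs_of_nonneg (sq_nonneg _)]
          refine pow_le_pow_left₀ (norm_nonneg _) ?_ 2
          refine (norm_sum_le _ _).trans ?_
          simp
        have h5 : N (fun c => ∑ i ∈ range (m ^ 2), ⟪S (Q.eval (c + i * h)) g, v⟫_ℝ) ≤
            N (fun c => (1 / (2 * m)) * ‖W c‖ ^ 2 + m / 2 * ‖v‖ ^ 2) := by
          refine hN.mono (Bdd.sum _ fun i _ => ⟨_, fun c => abs_inner_le S _ g v⟩)
            ((hbW.const_mul _).add (Bdd.const _)) fun c => ?_
          rw [← sum_inner]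
          have h6 := real_inner_le_norm (W c) v
          have h7 : ‖W c‖ * ‖v‖ ≤ (1 / (2 * m)) * ‖W c‖ ^ 2 + m / 2 * ‖v‖ ^ 2 := by
            have : (1 / (2 * m)) * ‖W c‖ ^ 2 + m / 2 * ‖v‖ ^ 2 - ‖W c‖ * ‖v‖ =
                (‖W c‖ - m * ‖v‖) ^ 2 / (2 * m) := by field_simp; ring
            have : 0 ≤ (‖W c‖ - m * ‖v‖) ^ 2 / (2 * m) := by positivity
            linarith
          exact h6.trans h7
        rw [mean_add, mean_const_mul, hW2, hN.const, mean_sum] at h5
        have e3 : 1 / (2 * (m : ℝ)) * ((m : ℝ) ^ 2 * ‖g‖ ^ 2) + m / 2 * ‖v‖ ^ 2 =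
            m * (‖g‖ ^ 2 + ‖v‖ ^ 2) / 2 := by field_simp
        linarith
      have step2 : ∀ m : ℕ, 0 < m → (m : ℝ) * a ≤ (‖g‖ ^ 2 + ‖v‖ ^ 2) / 2 := by
        intro m hm
        have hm' : (0 : ℝ) < m := by exact_mod_cast hm
        have : (m : ℝ) ^ 2 * a ≤ m * (‖g‖ ^ 2 + ‖v‖ ^ 2) / 2 := by
          refine le_of_forall_pos_le_add fun ε hε => ?_
          set K := (m : ℝ) ^ 2 * (2 * (‖g‖ * ‖v‖) * (m : ℝ) ^ 2) with hK
          have hK0 : 0 ≤ K := by positivity
          have := step m hm (ε / (K + 1)) (by positivity)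
          have e : (m : ℝ) ^ 2 * (2 * (‖g‖ * ‖v‖) * ((m : ℝ) ^ 2 * (ε / (K + 1)))) =
              K * (ε / (K + 1)) := by rw [hK]; ring
          have h3 : K * (ε / (K + 1)) ≤ ε := by
            rw [mul_div_assoc', div_le_iff₀ (by positivity)]; nlinarith
          linarith
        nlinarith
      by_contra hpos
      push Not at hpos
      obtain ⟨m, hm⟩ := exists_nat_gt ((‖g‖ ^ 2 + ‖v‖ ^ 2) / 2 / a)
      have h1 := step2 (m + 1) (Nat.succ_pos m)
      rw [div_lt_iff₀ hpos] at hm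
      push_cast at h1
      nlinarith
    have h1 := main v
    have h2 := main (-v)
    simp only [inner_neg_right] at h2
    rw [mean_neg] at h2
    linarith

/-- vectors continuous along the line `u ℝ` -/
def lineSub (T : ℂ → H →ₗᵢ[ℝ] H) (u : ℂ) : Submodule ℝ H where
  carrier := {g | Continuous (fun t : ℝ => T (u * t) g)}
  add_mem' := fun {a b} ha hb => by
    simp only [Set.mem_setOf_eq, map_add] at *
    exact ha.add hb
  zero_mem' := by simp only [Set.mem_setOf_eq, map_zero]; exact continuous_const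
  smul_mem' := fun c a ha => by
    simp only [Set.mem_setOf_eq, map_smul] at *
    exact ha.const_smul c

theorem isClosed_lineSub (T : ℂ → H →ₗᵢ[ℝ] H) (u : ℂ) : IsClosed (lineSub T u : Set H) := by
  refine isClosed_of_closure_subset fun g hg => ?_
  refine continuous_of_uniform_approx_of_continuous fun U hU => ?_
  obtain ⟨ε, hε, hU⟩ := Metric.mem_uniformity_dist.1 hU
  obtain ⟨b, hb, hd⟩ := Metric.mem_closure_iff.1 hg ε hε
  refine ⟨fun t : ℝ => T (u * t) b, hb, fun t => hU ?_⟩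
  rwa [(T _).dist_map]

theorem lineSub_inv (T : ℂ → H →ₗᵢ[ℝ] H) (hT : ∀ x y v, T (x + y) v = T x (T y v)) (u x : ℂ)
    {g : H} (hg : g ∈ lineSub T u) : T x g ∈ lineSub T u := by
  have : (fun t : ℝ => T (u * t) (T x g)) = fun t : ℝ => T x (T (u * t) g) := by
    funext t; rw [← hT, ← hT, add_comm]
  show Continuous (fun t : ℝ => T (u * t) (T x g))
  rw [this]
  exact (T x).continuous.comp hg

theorem cont_of_two_lines (T : ℂ → H →ₗᵢ[ℝ] H) (hT : ∀ x y v, T (x + y) v = T x (T y v))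
    (u u' : ℂ) (hd : u.re * u'.im - u.im * u'.re ≠ 0) {g : H}
    (hg : g ∈ lineSub T u) (hg' : g ∈ lineSub T u') : Continuous (fun x => T x g) := by
  set D := u.re * u'.im - u.im * u'.re with hD
  let s : ℂ → ℝ := fun x => (x.re * u'.im - x.im * u'.re) / D
  let t : ℂ → ℝ := fun x => (u.re * x.im - u.im * x.re) / D
  have hs : Continuous s := by fun_prop
  have ht : Continuous t := by fun_prop
  have hx : ∀ x, x = u * s x + u' * t x := by
    intro x
    apply Complex.ext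
    · simp only [Complex.add_re, Complex.mul_re, Complex.ofReal_re, Complex.ofReal_im, s, t]
      field_simp
      rw [hD]; ring
    · simp only [Complex.add_im, Complex.mul_im, Complex.ofReal_re, Complex.ofReal_im, s, t]
      field_simp
      rw [hD]; ring
  have hj0 : Continuous (fun p : H × H => p.1) := continuous_fst
  have hj : Continuous (fun p : ℝ × ℝ => T (u * p.1) (T (u' * p.2) g)) := by
    rw [continuous_iff_continuousAt]
    intro p
    rw [ContinuousAt, tendsto_iff_norm_sub_tendsto_zero]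
    have h1 : Continuous (fun q : ℝ × ℝ => ‖T (u' * q.2) g - T (u' * p.2) g‖ +
        ‖T (u * q.1) (T (u' * p.2) g) - T (u * p.1) (T (u' * p.2) g)‖) := by
      have c1 : Continuous (fun t : ℝ => T (u' * t) g) := hg'
      have c2 : Continuous (fun t : ℝ => T (u * t) (T (u' * p.2) g)) := lineSub_inv T hT u _ hg
      exact ((c1.comp continuous_snd).sub continuous_const).norm.add
        ((c2.comp continuous_fst).sub continuous_const).norm
    have h2 := h1.tendsto p
    simp only [sub_self, norm_zero, add_zero] at h2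
    refine squeeze_zero (fun _ => norm_nonneg _) (fun q => ?_) h2
    rw [← (T (u * q.1)).norm_map (T (u' * q.2) g - T (u' * p.2) g), map_sub]
    exact norm_sub_le_norm_sub_add_norm_sub _ _ _
  have : (fun x => T x g) = (fun p : ℝ × ℝ => T (u * p.1) (T (u' * p.2) g)) ∘
      fun x => (s x, t x) := by
    funext x
    simp only [Function.comp]
    rw [← hT, ← hx]
  rw [this]
  exact hj.comp (hs.prodMk ht)

theorem proj_comm [CompleteSpace H] (T : ℂ → H →ₗᵢ[ℝ] H) (h0 : ∀ v, T 0 v = v)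
    (hT : ∀ x y v, T (x + y) v = T x (T y v)) (K : Submodule ℝ H) [K.HasOrthogonalProjection]
    (hK : ∀ x, ∀ g ∈ K, T x g ∈ K) (x : ℂ) (g : H) :
    K.starProjection (T x g) = T x (K.starProjection g) := by
  refine Submodule.eq_starProjection_of_mem_of_inner_eq_zero (hK _ _ (K.starProjection_apply_mem g))
    fun w hw => ?_
  rw [← map_sub, inner_shift T h0 hT]
  exact K.starProjection_inner_eq_zero g _ (hK _ _ hw)

/-- a `K`-invariant vector orthogonal to continuous vectors is orthogonal to the vectors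
continuous along the real line. -/
theorem perp_line [CompleteSpace H] (T U : ℂ → H →ₗᵢ[ℝ] H) (h0 : ∀ v, T 0 v = v)
    (hT : ∀ x y v, T (x + y) v = T x (T y v))
    (hU : ∀ u x g, ‖u‖ = 1 → U u (T x g) = T (u * x) (U u g)) (f : H)
    (hf : ∀ u, ‖u‖ = 1 → U u f = f)
    (hperp : ∀ g, Continuous (fun x => T x g) → ⟪f, g⟫_ℝ = 0)
    (w : H) (hw : Continuous (fun t : ℝ => T t w)) : ⟪w, f⟫_ℝ = 0 := by
  haveI : ∀ u, (lineSub T u).HasOrthogonalProjection := fun u =>
    haveI : CompleteSpace (lineSub T u) := (isClosed_lineSub T u).completeSpace_coe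
    inferInstance
  let u : ℕ → ℂ := fun k => Complex.exp ((1 / ((k : ℝ) + 1) : ℝ) * Complex.I)
  have hu : ∀ k, ‖u k‖ = 1 := fun k => Complex.norm_exp_ofReal_mul_I _
  have hdet : ∀ k l, k ≠ l → (u k).re * (u l).im - (u k).im * (u l).re ≠ 0 := by
    intro k l hkl
    simp only [u, Complex.exp_ofReal_mul_I_re, Complex.exp_ofReal_mul_I_im]
    rw [show Real.cos (1 / ((k : ℝ) + 1)) * Real.sin (1 / ((l : ℝ) + 1)) -
      Real.sin (1 / ((k : ℝ) + 1)) * Real.cos (1 / ((l : ℝ) + 1)) =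
        Real.sin (1 / ((l : ℝ) + 1) - 1 / ((k : ℝ) + 1)) by rw [Real.sin_sub]; ring]
    have a1 : (0 : ℝ) < 1 / ((k : ℝ) + 1) := by positivity
    have a2 : (0 : ℝ) < 1 / ((l : ℝ) + 1) := by positivity
    have b1 : 1 / ((k : ℝ) + 1) ≤ 1 := by
      rw [div_le_one (by positivity)]; linarith [Nat.cast_nonneg (α := ℝ) k]
    have b2 : 1 / ((l : ℝ) + 1) ≤ 1 := by
      rw [div_le_one (by positivity)]; linarith [Nat.cast_nonneg (α := ℝ) l]
    have hpi := Real.pi_gt_three
    intro h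
    rw [Real.sin_eq_zero_iff_of_lt_of_lt (by linarith) (by linarith), sub_eq_zero,
      div_eq_div_iff (by positivity) (by positivity)] at h
    apply hkl
    have : (k : ℝ) = l := by linarith
    exact_mod_cast this
  let e : ℕ → H := fun k => (lineSub T (u k)).starProjection f
  have horth : ∀ k l, k ≠ l → ⟪e k, e l⟫_ℝ = 0 := by
    intro k l hkl
    have h1 : ⟪e k, e l⟫_ℝ = ⟪f, (lineSub T (u k)).starProjection (e l)⟫_ℝ :=
      Submodule.inner_starProjection_left_eq_right _ _ _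
    rw [h1]
    apply hperp
    refine cont_of_two_lines T hT (u k) (u l) (hdet k l hkl)
      (Submodule.starProjection_apply_mem _ _) ?_
    have h2 : e l ∈ lineSub T (u l) := Submodule.starProjection_apply_mem _ _
    show Continuous (fun t : ℝ => T (u l * t) ((lineSub T (u k)).starProjection (e l)))
    have : (fun t : ℝ => T (u l * t) ((lineSub T (u k)).starProjection (e l))) =
        fun t : ℝ => (lineSub T (u k)).starProjection (T (u l * t) (e l)) := by
      funext t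
      rw [proj_comm T h0 hT _ (fun x g hg => lineSub_inv T hT _ x hg)]
    rw [this]
    exact (lineSub T (u k)).starProjection.continuous.comp h2
  have hef : ∀ k, ⟪e k, f⟫_ℝ = ‖e k‖ ^ 2 := by
    intro k
    have := (lineSub T (u k)).starProjection_inner_eq_zero f (e k)
      (Submodule.starProjection_apply_mem _ _)
    rw [inner_sub_left, real_inner_self_eq_norm_sq] at this
    rw [real_inner_comm]
    linarith
  have hlow : ∀ k, ⟪w, f⟫_ℝ ^ 2 ≤ ‖w‖ ^ 2 * ‖e k‖ ^ 2 := by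
    intro k
    have hm : U (u k) w ∈ lineSub T (u k) := by
      show Continuous (fun t : ℝ => T (u k * t) (U (u k) w))
      have : (fun t : ℝ => T (u k * t) (U (u k) w)) = fun t : ℝ => U (u k) (T t w) := by
        funext t; rw [hU _ _ _ (hu k)]
      rw [this]
      exact (U (u k)).continuous.comp hw
    have h1 : ⟪w, f⟫_ℝ = ⟪U (u k) w, e k⟫_ℝ := by
      rw [← (U (u k)).inner_map_map, hf _ (hu k)]
      have := (lineSub T (u k)).starProjection_inner_eq_zero f _ hm
      rw [inner_sub_left] at this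
      rw [real_inner_comm, real_inner_comm (e k)]
      linarith
    rw [h1, ← mul_pow, ← sq_abs]
    refine pow_le_pow_left₀ (abs_nonneg _) ?_ 2
    have := abs_real_inner_le_norm (U (u k) w) (e k)
    rwa [(U (u k)).norm_map] at this
  have hsum : ∀ n : ℕ, ∑ k ∈ range n, ‖e k‖ ^ 2 ≤ ‖f‖ ^ 2 := by
    intro n
    have h1 : ‖∑ k ∈ range n, e k‖ ^ 2 = ∑ k ∈ range n, ‖e k‖ ^ 2 := by
      rw [← real_inner_self_eq_norm_sq, sum_inner]
      refine Finset.sum_congr rfl fun k hk => ?_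
      rw [inner_sum, Finset.sum_eq_single k, real_inner_self_eq_norm_sq]
      · intro l _ hl; exact horth k l (Ne.symm hl)
      · intro h; exact absurd hk h
    have h2 : ⟪∑ k ∈ range n, e k, f⟫_ℝ = ∑ k ∈ range n, ‖e k‖ ^ 2 := by
      rw [sum_inner]; exact Finset.sum_congr rfl fun k _ => hef k
    have h3 := real_inner_le_norm (∑ k ∈ range n, e k) f
    nlinarith [sq_nonneg (‖∑ k ∈ range n, e k‖ - ‖f‖)]
  by_contra hne
  have hpos : 0 < ⟪w, f⟫_ℝ ^ 2 := by positivity
  obtain ⟨n, hn⟩ := exists_nat_gt (‖w‖ ^ 2 * ‖f‖ ^ 2 / ⟪w, f⟫_ℝ ^ 2)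
  rw [div_lt_iff₀ hpos] at hn
  have h4 : ∑ _k ∈ range n, ⟪w, f⟫_ℝ ^ 2 ≤ ∑ k ∈ range n, ‖w‖ ^ 2 * ‖e k‖ ^ 2 :=
    Finset.sum_le_sum fun k _ => hlow k
  rw [← Finset.mul_sum] at h4
  simp only [Finset.sum_const, Finset.card_range, nsmul_eq_mul] at h4
  have := mul_le_mul_of_nonneg_left (hsum n) (sq_nonneg ‖w‖)
  linarith

theorem norm_rot_sub (φ : ℝ) (a b : ℕ) :
    ‖Complex.exp ((2 * a * φ : ℝ) * Complex.I) - Complex.exp ((2 * b * φ : ℝ) * Complex.I)‖ =
      2 * |Real.sin (((a : ℝ) - b) * φ)| := by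
  have : Complex.exp ((2 * a * φ : ℝ) * Complex.I) - Complex.exp ((2 * b * φ : ℝ) * Complex.I) =
      Complex.exp ((2 * b * φ : ℝ) * Complex.I) *
        (Complex.exp (Complex.I * (2 * ((a : ℝ) - b) * φ : ℝ)) - 1) := by
    rw [mul_sub, mul_one, ← Complex.exp_add]
    congr 2
    push_cast; ring
  rw [this, norm_mul, Complex.norm_exp_ofReal_mul_I, one_mul, Complex.norm_exp_I_mul_ofReal_sub_one,
    norm_mul, Real.norm_eq_abs, Real.norm_eq_abs, abs_two]
  congr 3
  ring

theorem natDegree_cheb (r : ℝ) (hr : r ≠ 0) (m n : ℤ) (hm : m ≠ 0) (hn : n ≠ 0) :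
    0 < (C r * (Chebyshev.T ℝ (m - n) - Chebyshev.T ℝ (m + n))).natDegree := by
  rw [natDegree_C_mul hr]
  have h : (m - n).natAbs ≠ (m + n).natAbs := by omega
  rcases lt_or_gt_of_ne h with h | h
  · rw [natDegree_sub_eq_right_of_natDegree_lt (by simpa only [Chebyshev.natDegree_T] using h),
      Chebyshev.natDegree_T]
    omega
  · rw [natDegree_sub_eq_left_of_natDegree_lt (by simpa only [Chebyshev.natDegree_T] using h),
      Chebyshev.natDegree_T]
    omega

theorem rigid [CompleteSpace H] (T U : ℂ → H →ₗᵢ[ℝ] H) (h0 : ∀ v, T 0 v = v)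
    (hT : ∀ x y v, T (x + y) v = T x (T y v))
    (hU : ∀ u x g, ‖u‖ = 1 → U u (T x g) = T (u * x) (U u g)) (f : H)
    (hf : ∀ u, ‖u‖ = 1 → U u f = f)
    (hperp : ∀ g, Continuous (fun x => T x g) → ⟪f, g⟫_ℝ = 0)
    (y : ℂ) (hy : y ≠ 0) : ⟪T y f, f⟫_ℝ = 0 := by
  obtain ⟨N, hN, hNge, hNs⟩ := exists_local_mean
  let ψ : ℂ → ℝ := fun x => ⟪T x f, f⟫_ℝ
  have hrot : ∀ u x, ‖u‖ = 1 → ψ (u * x) = ψ x := by
    intro u x hu
    simp only [ψ]
    rw [← (U u).inner_map_map (T x f) f, hU _ _ _ hu, hf _ hu]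
  have hrad : ∀ x z : ℂ, ‖x‖ = ‖z‖ → ψ x = ψ z := by
    intro x z h
    by_cases hz : z = 0
    · subst hz
      rw [norm_zero, norm_eq_zero] at h
      rw [h]
    · have : x = (x / z) * z := by field_simp
      rw [this, hrot]
      rw [norm_div, h, div_self (norm_ne_zero_iff.2 hz)]
  have hψ0 : ψ 0 = ‖f‖ ^ 2 := by simp only [ψ, h0, real_inner_self_eq_norm_sq]
  have hS0 : ∀ v, T ((0 : ℝ) : ℂ) v = v := by simpa using h0
  have hvdc := vdc N hN hNs (fun t : ℝ => T t) hS0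
    (fun x y v => by simp only [Complex.ofReal_add, hT]) f
    (fun w hw => perp_line T U h0 hT hU f hf hperp w hw)
  -- Cauchy–Schwarz
  have hcs : ∀ (m : ℕ) (w : ℕ → ℂ), (∀ a, ‖w a‖ = 1) → ∀ x : ℂ,
      ((m : ℝ) * ψ x) ^ 2 ≤ ‖f‖ ^ 2 * ∑ a ∈ range m, ∑ b ∈ range m, ψ (x * (w a - w b)) := by
    intro m w hw x
    have h1 := cs_sum T h0 hT (range m) (fun a => w a * x) f
    have h2 : ⟪∑ a ∈ range m, T (w a * x) f, f⟫_ℝ = m * ψ x := by
      rw [sum_inner]
      have : ∀ a ∈ range m, ⟪T (w a * x) f, f⟫_ℝ = ψ x := fun a _ => hrot _ _ (hw a)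
      rw [Finset.sum_congr rfl this]; simp
    have h3 : ∑ a ∈ range m, ∑ b ∈ range m, ψ (x * (w a - w b)) =
        ‖∑ a ∈ range m, T (w a * x) f‖ ^ 2 := by
      rw [h1]
      refine Finset.sum_congr rfl fun a _ => Finset.sum_congr rfl fun b _ => ?_
      simp only [ψ]
      congr 3
      ring
    rw [h3, ← h2, ← mul_pow, ← sq_abs]
    refine pow_le_pow_left₀ (abs_nonneg _) ?_ 2
    rw [mul_comm]
    exact abs_real_inner_le_norm _ _
  let Q : ℕ → ℕ → ℕ → ℕ → ℝ[X] := fun a b a' b' =>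
    C (2 * ‖y‖) * (Chebyshev.T ℝ (((a : ℤ) - b) - ((a' : ℤ) - b')) -
      Chebyshev.T ℝ (((a : ℤ) - b) + ((a' : ℤ) - b')))
  have hmain : ∀ m : ℕ, ∀ c : ℝ, 0 ≤ c → c < 1 →
      (m : ℝ) ^ 2 * ((m : ℝ) * ψ y) ^ 4 ≤ (‖f‖ ^ 2) ^ 3 * (m : ℝ) ^ 2 *
        ∑ a ∈ range m, ∑ b ∈ range m, ∑ a' ∈ range m, ∑ b' ∈ range m,
          ψ ((Q a b a' b').eval c : ℝ) := by
    intro m c hc0 hc1
    set φ := Real.arccos c with hφ
    have hcos : Real.cos φ = c := Real.cos_arccos (by linarith) hc1.le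
    let w : ℕ → ℂ := fun a => Complex.exp ((2 * a * φ : ℝ) * Complex.I)
    have hw : ∀ a, ‖w a‖ = 1 := fun a => Complex.norm_exp_ofReal_mul_I _
    have hQ : ∀ a b a' b', ψ (y * (w a - w b) * (w a' - w b')) = ψ ((Q a b a' b').eval c : ℝ) := by
      intro a b a' b'
      apply hrad
      rw [norm_mul, norm_mul, norm_rot_sub, norm_rot_sub, Complex.norm_real, Real.norm_eq_abs]
      simp only [Q, eval_mul, eval_C, eval_sub]
      rw [← hcos, Chebyshev.T_real_cos, Chebyshev.T_real_cos]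
      push_cast
      rw [sub_mul ((a : ℝ) - b), add_mul ((a : ℝ) - b), Real.cos_sub, Real.cos_add]
      rw [show 2 * ‖y‖ * (Real.cos (((a : ℝ) - b) * φ) * Real.cos (((a' : ℝ) - b') * φ) +
        Real.sin (((a : ℝ) - b) * φ) * Real.sin (((a' : ℝ) - b') * φ) -
        (Real.cos (((a : ℝ) - b) * φ) * Real.cos (((a' : ℝ) - b') * φ) -
        Real.sin (((a : ℝ) - b) * φ) * Real.sin (((a' : ℝ) - b') * φ))) =
        (4 * ‖y‖) * (Real.sin (((a : ℝ) - b) * φ) * Real.sin (((a' : ℝ) - b') * φ)) by ring,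
        abs_mul, abs_mul (Real.sin _), abs_of_nonneg (by positivity : (0 : ℝ) ≤ 4 * ‖y‖)]
      ring
    have h1 := hcs m w hw y
    set s := ∑ a ∈ range m, ∑ b ∈ range m, ψ (y * (w a - w b)) with hs
    have h2 : s ^ 2 ≤ (m : ℝ) ^ 2 * ∑ a ∈ range m, ∑ b ∈ range m, ψ (y * (w a - w b)) ^ 2 := by
      have := sq_sum_le_card_mul_sum_sq (s := range m ×ˢ range m)
        (f := fun p => ψ (y * (w p.1 - w p.2)))
      rw [Finset.sum_product, Finset.sum_product] at this
      simpa [sq] using this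
    have h3 : (m : ℝ) ^ 2 * ∑ a ∈ range m, ∑ b ∈ range m, ψ (y * (w a - w b)) ^ 2 ≤
        ‖f‖ ^ 2 * ∑ a ∈ range m, ∑ b ∈ range m, ∑ a' ∈ range m, ∑ b' ∈ range m,
          ψ ((Q a b a' b').eval c : ℝ) := by
      rw [Finset.mul_sum, Finset.mul_sum]
      refine Finset.sum_le_sum fun a _ => ?_
      rw [Finset.mul_sum, Finset.mul_sum]
      refine Finset.sum_le_sum fun b _ => ?_
      have := hcs m w hw (y * (w a - w b))
      simp only [hQ] at this
      rw [← mul_pow]
      exact this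
    have h4 : (((m : ℝ) * ψ y) ^ 2) ^ 2 ≤ (‖f‖ ^ 2 * s) ^ 2 :=
      pow_le_pow_left₀ (sq_nonneg _) h1 2
    have h5 := h2.trans h3
    calc (m : ℝ) ^ 2 * ((m : ℝ) * ψ y) ^ 4 = (m : ℝ) ^ 2 * (((m : ℝ) * ψ y) ^ 2) ^ 2 := by ring
      _ ≤ (m : ℝ) ^ 2 * (‖f‖ ^ 2 * s) ^ 2 := by gcongr
      _ = (m : ℝ) ^ 2 * (‖f‖ ^ 2) ^ 2 * s ^ 2 := by ring
      _ ≤ (m : ℝ) ^ 2 * (‖f‖ ^ 2) ^ 2 * (‖f‖ ^ 2 * ∑ a ∈ range m, ∑ b ∈ range m,
          ∑ a' ∈ range m, ∑ b' ∈ range m, ψ ((Q a b a' b').eval c : ℝ)) := by gcongr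
      _ = _ := by ring
  have hbd : ∀ x, |ψ x| ≤ ‖f‖ * ‖f‖ := fun x => abs_inner_le T x f f
  have hterm : ∀ a b a' b' : ℕ, N (fun c => ψ ((Q a b a' b').eval c : ℝ)) ≤
      ‖f‖ ^ 2 * ((if a = b then 1 else 0) + (if a' = b' then 1 else 0)) := by
    intro a b a' b'
    have hle : N (fun c => ψ ((Q a b a' b').eval c : ℝ)) ≤ ‖f‖ ^ 2 := by
      refine hN.le _ _ ⟨_, fun c => hbd _⟩ fun c => ?_
      rw [sq]; exact (le_abs_self _).trans (hbd _)
    have hf2 := sq_nonneg ‖f‖
    by_cases h1 : a = b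
    · by_cases h2 : a' = b' <;> simp only [h1, h2, if_true, if_false] at hle ⊢ <;> linarith
    · by_cases h2 : a' = b'
      · simp only [h1, h2, if_true, if_false] at hle ⊢; linarith
      · simp only [h1, h2, if_false]
        have hd := natDegree_cheb (2 * ‖y‖) (by positivity) ((a : ℤ) - b) ((a' : ℤ) - b')
          (by omega) (by omega)
        have := hvdc _ (Q a b a' b') rfl hd f
        simp only [ψ]
        rw [this]; simp
  have hfin : ∀ m : ℕ, (m : ℝ) ^ 2 * ((m : ℝ) * ψ y) ^ 4 ≤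
      (‖f‖ ^ 2) ^ 3 * (m : ℝ) ^ 2 * (‖f‖ ^ 2 * (2 * (m : ℝ) ^ 3)) := by
    intro m
    have h1 := hNge _ _ (Bdd.const_mul _ (Bdd.sum _ fun a _ => Bdd.sum _ fun b _ =>
      Bdd.sum _ fun a' _ => Bdd.sum _ fun b' _ => ⟨_, fun c => hbd _⟩)) (hmain m)
    refine h1.trans ?_
    rw [mean_const_mul]
    gcongr
    simp only [mean_sum]
    calc _ ≤ ∑ a ∈ range m, ∑ b ∈ range m, ∑ a' ∈ range m, ∑ b' ∈ range m,
          ‖f‖ ^ 2 * ((if a = b then 1 else 0) + (if a' = b' then (1 : ℝ) else 0)) :=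
          Finset.sum_le_sum fun a _ => Finset.sum_le_sum fun b _ => Finset.sum_le_sum fun a' _ =>
            Finset.sum_le_sum fun b' _ => hterm a b a' b'
      _ = _ := by
        simp only [← Finset.mul_sum]
        congr 1
        have e1 : ∀ a' ∈ range m, ∑ b' ∈ range m, (if a' = b' then (1 : ℝ) else 0) = 1 := by
          intro a' ha'
          rw [Finset.sum_ite_eq]; simp [Finset.mem_range.1 ha']
        simp only [Finset.sum_add_distrib, Finset.sum_const, Finset.card_range, nsmul_eq_mul]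
        rw [Finset.sum_congr rfl e1]
        simp only [← Finset.mul_sum]
        rw [Finset.sum_congr rfl e1]
        simp only [Finset.sum_const, Finset.card_range, nsmul_eq_mul]
        ring
  by_contra hne
  have hpos : 0 < ψ y ^ 4 := by
    have : ψ y ≠ 0 := hne
    positivity
  obtain ⟨m, hm⟩ := exists_nat_gt (2 * (‖f‖ ^ 2) ^ 4 / ψ y ^ 4)
  rw [div_lt_iff₀ hpos] at hm
  have hm0 : (0 : ℝ) < m := by
    by_contra h
    have : (m : ℝ) = 0 := le_antisymm (not_lt.1 h) (Nat.cast_nonneg m)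
    rw [this] at hm
    have : 0 ≤ 2 * (‖f‖ ^ 2) ^ 4 := by positivity
    linarith
  have h1 := hfin m
  have h2 : (m : ℝ) ^ 5 * (2 * (‖f‖ ^ 2) ^ 4) < (m : ℝ) ^ 5 * (m * ψ y ^ 4) := by gcongr
  nlinarith

end Crest.Agent.R40A.H11
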