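import Crest.Agent.R40A.Rig11
import Crest.Agent.R40A.Proj

/-! Rigidity theorem in the shape used by `Proj.lean`. -/

set_option autoImplicit false

namespace Crest.Agent.R40A

theorem rigidFor (H : Type*) [NormedAddCommGroup H] [InnerProductSpace ℝ H] [CompleteSpace H] :
    RigidFor H :=
  fun T U h0 hT hU f hf hperp y hy => H11.rigid T U h0 hT hU f hf hperp y hy

end Crest.Agent.R40A
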